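import Vale.Agent.P098.Exact.Sos.Data.Interior

/-! The interior inequality of the dimension five table. -/

namespace Vale.Agent.P098.Exact.Sos

theorem interior_table (l v : Fin 5 → ℝ) (τ : Fin 5 → Fin 5 → Fin 5 → ℝ) (a : ℝ)
    (hA : Admissible (n := 4) l v τ) (ha : 0 ≤ a) :
    delta5 ≤ Qval (n := 4) D5.al D5.table l v τ a 1 :=
  Data.interior l v τ a hA ha

end Vale.Agent.P098.Exact.Sos
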