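import Vale.Agent.P098.Exact.Sos.GenHom

/-! The generic form over the reals is the interior form of the dimension five table. -/

noncomputable section

namespace Vale.Agent.P098.Exact.Sos

theorem sum5_real (f : Fin 5 → ℝ) : sum5 realOps f = ∑ i, f i := by
  simp [sum5, realOps, Fin.sum_univ_five]

theorem pw_real (x : ℝ) : ∀ k, pw realOps x k = x ^ k
  | 0 => by simp [pw, realOps]
  | k + 1 => by
    rw [pw, pw_real x k, pow_succ]
    rfl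

theorem sumL_real : ∀ l : List ℝ, sumL realOps l = l.sum
  | [] => by simp [sumL, realOps]
  | a :: l => by
    rw [sumL, sumL_real l, List.sum_cons]
    rfl

theorem valG_real (t : Form) (j q : Jet 5) : valG realOps t j q = t.val j q := by
  cases t <;> simp [valG, Form.val, sum5_real] <;> rfl

theorem dvalG_real (t : Form) (j h q : Jet 5) : dvalG realOps t j h q = t.dval j h q := by
  cases t <;> simp only [dvalG, Form.dval, sum5_real] <;> simp [realOps]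

theorem dsG_real (j h : Jet 5) : dsG realOps j h = dsqA j h := by
  simp only [dsG, dsqA, sum5_real]
  simp [realOps]

theorem monG_real (t : ITerm) (j : Jet 5) : monG realOps t j = t.term.mon j := by
  simp only [monG, Term.mon, ITerm.term, t3G, p0G, p1G, t3, p0, p1, sum5_real, pw_real]
  simp [realOps, sq]

theorem dmonG_real (t : ITerm) (j h : Jet 5) : dmonG realOps t j h = t.term.dmon j h := by
  simp only [dmonG, Term.dmon, ITerm.term, t3G, dt3G, p0G, dp0G, p1G, dp1G, t3, dt3, p0, dp0, p1,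
    dp1, sum5_real, pw_real]
  simp [realOps, sq]

theorem wt_term (t : ITerm) : t.term.wt = t.wt := rfl

theorem dtermG_real (t : ITerm) (j q : Jet 5) (hj : sqA j = 1) :
    dtermG realOps t j q = 640000 * t.term.dval D5.al j q q := by
  have h : ∀ e : ℝ, sqA j ^ e = 1 := fun e => by rw [hj, Real.one_rpow]
  simp only [dtermG, dsG_real, monG_real, dmonG_real, valG_real, dvalG_real, Term.dval, h, wt_term,
    D5.al]
  simp only [realOps, ITerm.term]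
  push_cast
  ring

theorem termG_real (t : ITerm) (j q : Jet 5) (hj : sqA j = 1) :
    termG realOps t j q = 640000 * t.term.val D5.al j q := by
  simp only [termG, monG_real, valG_real, Term.val, hj, Real.one_rpow]
  simp only [realOps, ITerm.term]
  push_cast
  ring

variable (l v : Fin 5 → ℝ) (τ : Fin 5 → Fin 5 → Fin 5 → ℝ) (a b : ℝ)

/-- The variables of a point. -/
def xvar : List ℝ :=
  [τ 0 0 0, τ 0 0 1, τ 0 0 2, τ 0 0 3, τ 0 1 1, τ 0 1 2, τ 0 1 3, τ 0 2 2, τ 0 2 3, τ 1 1 1,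
    τ 1 1 2, τ 1 1 3, τ 1 2 2, τ 1 2 3, τ 2 2 2, τ 2 2 3, a, b, v 0, v 1, v 2, v 3, v 4,
    l 0, l 1, l 2, l 3]

variable {l v τ}

theorem tauG_real0 (hA : Admissible (n := 4) l v τ) (k m : Fin 5) :
    tauG realOps (fun n => (xvar l v τ a b).getD n 0) 0 k m = τ 0 k m := by
  have r := hA.tau_right
  have f := hA.tau_left
  have z1 : ∀ k m, τ 4 k m = 0 := hA.tau_last
  have z2 : ∀ i m, τ i 4 m = 0 := fun i m => by rw [f, z1]
  have z3 : ∀ i k, τ i k 4 = 0 := fun i k => by rw [r, z2]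
  have tr : ∀ i : Fin 5, τ i 0 0 + τ i 1 1 + τ i 2 2 + τ i 3 3 = 0 := fun i => by
    have := hA.tau_trace i
    rw [Fin.sum_univ_five, z2, add_zero] at this
    exact this
  have q010 : τ 0 1 0 = τ 0 0 1 := r 0 1 0
  have q100 : τ 1 0 0 = τ 0 0 1 := (f 1 0 0).trans (r 0 1 0)
  have q020 : τ 0 2 0 = τ 0 0 2 := r 0 2 0
  have q200 : τ 2 0 0 = τ 0 0 2 := (f 2 0 0).trans (r 0 2 0)
  have q030 : τ 0 3 0 = τ 0 0 3 := r 0 3 0
  have q300 : τ 3 0 0 = τ 0 0 3 := (f 3 0 0).trans (r 0 3 0)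
  have q101 : τ 1 0 1 = τ 0 1 1 := f 1 0 1
  have q110 : τ 1 1 0 = τ 0 1 1 := (r 1 1 0).trans (f 1 0 1)
  have q021 : τ 0 2 1 = τ 0 1 2 := r 0 2 1
  have q102 : τ 1 0 2 = τ 0 1 2 := f 1 0 2
  have q120 : τ 1 2 0 = τ 0 1 2 := (r 1 2 0).trans (f 1 0 2)
  have q201 : τ 2 0 1 = τ 0 1 2 := (f 2 0 1).trans (r 0 2 1)
  have q210 : τ 2 1 0 = τ 0 1 2 := ((f 2 1 0).trans (r 1 2 0)).trans (f 1 0 2)
  have q031 : τ 0 3 1 = τ 0 1 3 := r 0 3 1
  have q103 : τ 1 0 3 = τ 0 1 3 := f 1 0 3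
  have q130 : τ 1 3 0 = τ 0 1 3 := (r 1 3 0).trans (f 1 0 3)
  have q301 : τ 3 0 1 = τ 0 1 3 := (f 3 0 1).trans (r 0 3 1)
  have q310 : τ 3 1 0 = τ 0 1 3 := ((f 3 1 0).trans (r 1 3 0)).trans (f 1 0 3)
  have q202 : τ 2 0 2 = τ 0 2 2 := f 2 0 2
  have q220 : τ 2 2 0 = τ 0 2 2 := (r 2 2 0).trans (f 2 0 2)
  have q032 : τ 0 3 2 = τ 0 2 3 := r 0 3 2
  have q203 : τ 2 0 3 = τ 0 2 3 := f 2 0 3
  have q230 : τ 2 3 0 = τ 0 2 3 := (r 2 3 0).trans (f 2 0 3)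
  have q302 : τ 3 0 2 = τ 0 2 3 := (f 3 0 2).trans (r 0 3 2)
  have q320 : τ 3 2 0 = τ 0 2 3 := ((f 3 2 0).trans (r 2 3 0)).trans (f 2 0 3)
  have q303 : τ 3 0 3 = τ 0 3 3 := f 3 0 3
  have q330 : τ 3 3 0 = τ 0 3 3 := (r 3 3 0).trans (f 3 0 3)
  have q121 : τ 1 2 1 = τ 1 1 2 := r 1 2 1
  have q211 : τ 2 1 1 = τ 1 1 2 := (f 2 1 1).trans (r 1 2 1)
  have q131 : τ 1 3 1 = τ 1 1 3 := r 1 3 1
  have q311 : τ 3 1 1 = τ 1 1 3 := (f 3 1 1).trans (r 1 3 1)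
  have q212 : τ 2 1 2 = τ 1 2 2 := f 2 1 2
  have q221 : τ 2 2 1 = τ 1 2 2 := (r 2 2 1).trans (f 2 1 2)
  have q132 : τ 1 3 2 = τ 1 2 3 := r 1 3 2
  have q213 : τ 2 1 3 = τ 1 2 3 := f 2 1 3
  have q231 : τ 2 3 1 = τ 1 2 3 := (r 2 3 1).trans (f 2 1 3)
  have q312 : τ 3 1 2 = τ 1 2 3 := (f 3 1 2).trans (r 1 3 2)
  have q321 : τ 3 2 1 = τ 1 2 3 := ((f 3 2 1).trans (r 2 3 1)).trans (f 2 1 3)
  have q313 : τ 3 1 3 = τ 1 3 3 := f 3 1 3
  have q331 : τ 3 3 1 = τ 1 3 3 := (r 3 3 1).trans (f 3 1 3)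
  have q232 : τ 2 3 2 = τ 2 2 3 := r 2 3 2
  have q322 : τ 3 2 2 = τ 2 2 3 := (f 3 2 2).trans (r 2 3 2)
  have q323 : τ 3 2 3 = τ 2 3 3 := f 3 2 3
  have q332 : τ 3 3 2 = τ 2 3 3 := (r 3 3 2).trans (f 3 2 3)
  have d0 : τ 0 3 3 = -τ 0 0 0 + (-τ 0 1 1 + -τ 0 2 2) := by
    linarith [tr 0]
  have d1 : τ 1 3 3 = -τ 0 0 1 + (-τ 1 1 1 + -τ 1 2 2) := by
    linarith [tr 1, q100]
  have d2 : τ 2 3 3 = -τ 0 0 2 + (-τ 1 1 2 + -τ 2 2 2) := by
    linarith [tr 2, q200, q211]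
  have d3 : τ 3 3 3 = -τ 0 0 3 + (-τ 1 1 3 + -τ 2 2 3) := by
    linarith [tr 3, q300, q311, q322]
  simp only [tauG, sumL_real]
  fin_cases k <;> fin_cases m <;>
    simp [tauSort, tauIdx, xvar, realOps, z1, z2, z3,
      q010, q100, q020, q200, q030, q300, q101, q110,
      q021, q102, q120, q201, q210, q031, q103, q130,
      q301, q310, q202, q220, q032, q203, q230, q302,
      q320, q303, q330, q121, q211, q131, q311, q212,
      q221, q132, q213, q231, q312, q321, q313, q331,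
      q232, q322, q323, q332, d0, d1, d2, d3]

theorem tauG_real1 (hA : Admissible (n := 4) l v τ) (k m : Fin 5) :
    tauG realOps (fun n => (xvar l v τ a b).getD n 0) 1 k m = τ 1 k m := by
  have r := hA.tau_right
  have f := hA.tau_left
  have z1 : ∀ k m, τ 4 k m = 0 := hA.tau_last
  have z2 : ∀ i m, τ i 4 m = 0 := fun i m => by rw [f, z1]
  have z3 : ∀ i k, τ i k 4 = 0 := fun i k => by rw [r, z2]
  have tr : ∀ i : Fin 5, τ i 0 0 + τ i 1 1 + τ i 2 2 + τ i 3 3 = 0 := fun i => by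
    have := hA.tau_trace i
    rw [Fin.sum_univ_five, z2, add_zero] at this
    exact this
  have q010 : τ 0 1 0 = τ 0 0 1 := r 0 1 0
  have q100 : τ 1 0 0 = τ 0 0 1 := (f 1 0 0).trans (r 0 1 0)
  have q020 : τ 0 2 0 = τ 0 0 2 := r 0 2 0
  have q200 : τ 2 0 0 = τ 0 0 2 := (f 2 0 0).trans (r 0 2 0)
  have q030 : τ 0 3 0 = τ 0 0 3 := r 0 3 0
  have q300 : τ 3 0 0 = τ 0 0 3 := (f 3 0 0).trans (r 0 3 0)
  have q101 : τ 1 0 1 = τ 0 1 1 := f 1 0 1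
  have q110 : τ 1 1 0 = τ 0 1 1 := (r 1 1 0).trans (f 1 0 1)
  have q021 : τ 0 2 1 = τ 0 1 2 := r 0 2 1
  have q102 : τ 1 0 2 = τ 0 1 2 := f 1 0 2
  have q120 : τ 1 2 0 = τ 0 1 2 := (r 1 2 0).trans (f 1 0 2)
  have q201 : τ 2 0 1 = τ 0 1 2 := (f 2 0 1).trans (r 0 2 1)
  have q210 : τ 2 1 0 = τ 0 1 2 := ((f 2 1 0).trans (r 1 2 0)).trans (f 1 0 2)
  have q031 : τ 0 3 1 = τ 0 1 3 := r 0 3 1
  have q103 : τ 1 0 3 = τ 0 1 3 := f 1 0 3
  have q130 : τ 1 3 0 = τ 0 1 3 := (r 1 3 0).trans (f 1 0 3)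
  have q301 : τ 3 0 1 = τ 0 1 3 := (f 3 0 1).trans (r 0 3 1)
  have q310 : τ 3 1 0 = τ 0 1 3 := ((f 3 1 0).trans (r 1 3 0)).trans (f 1 0 3)
  have q202 : τ 2 0 2 = τ 0 2 2 := f 2 0 2
  have q220 : τ 2 2 0 = τ 0 2 2 := (r 2 2 0).trans (f 2 0 2)
  have q032 : τ 0 3 2 = τ 0 2 3 := r 0 3 2
  have q203 : τ 2 0 3 = τ 0 2 3 := f 2 0 3
  have q230 : τ 2 3 0 = τ 0 2 3 := (r 2 3 0).trans (f 2 0 3)
  have q302 : τ 3 0 2 = τ 0 2 3 := (f 3 0 2).trans (r 0 3 2)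
  have q320 : τ 3 2 0 = τ 0 2 3 := ((f 3 2 0).trans (r 2 3 0)).trans (f 2 0 3)
  have q303 : τ 3 0 3 = τ 0 3 3 := f 3 0 3
  have q330 : τ 3 3 0 = τ 0 3 3 := (r 3 3 0).trans (f 3 0 3)
  have q121 : τ 1 2 1 = τ 1 1 2 := r 1 2 1
  have q211 : τ 2 1 1 = τ 1 1 2 := (f 2 1 1).trans (r 1 2 1)
  have q131 : τ 1 3 1 = τ 1 1 3 := r 1 3 1
  have q311 : τ 3 1 1 = τ 1 1 3 := (f 3 1 1).trans (r 1 3 1)
  have q212 : τ 2 1 2 = τ 1 2 2 := f 2 1 2
  have q221 : τ 2 2 1 = τ 1 2 2 := (r 2 2 1).trans (f 2 1 2)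
  have q132 : τ 1 3 2 = τ 1 2 3 := r 1 3 2
  have q213 : τ 2 1 3 = τ 1 2 3 := f 2 1 3
  have q231 : τ 2 3 1 = τ 1 2 3 := (r 2 3 1).trans (f 2 1 3)
  have q312 : τ 3 1 2 = τ 1 2 3 := (f 3 1 2).trans (r 1 3 2)
  have q321 : τ 3 2 1 = τ 1 2 3 := ((f 3 2 1).trans (r 2 3 1)).trans (f 2 1 3)
  have q313 : τ 3 1 3 = τ 1 3 3 := f 3 1 3
  have q331 : τ 3 3 1 = τ 1 3 3 := (r 3 3 1).trans (f 3 1 3)
  have q232 : τ 2 3 2 = τ 2 2 3 := r 2 3 2
  have q322 : τ 3 2 2 = τ 2 2 3 := (f 3 2 2).trans (r 2 3 2)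
  have q323 : τ 3 2 3 = τ 2 3 3 := f 3 2 3
  have q332 : τ 3 3 2 = τ 2 3 3 := (r 3 3 2).trans (f 3 2 3)
  have d0 : τ 0 3 3 = -τ 0 0 0 + (-τ 0 1 1 + -τ 0 2 2) := by
    linarith [tr 0]
  have d1 : τ 1 3 3 = -τ 0 0 1 + (-τ 1 1 1 + -τ 1 2 2) := by
    linarith [tr 1, q100]
  have d2 : τ 2 3 3 = -τ 0 0 2 + (-τ 1 1 2 + -τ 2 2 2) := by
    linarith [tr 2, q200, q211]
  have d3 : τ 3 3 3 = -τ 0 0 3 + (-τ 1 1 3 + -τ 2 2 3) := by
    linarith [tr 3, q300, q311, q322]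
  simp only [tauG, sumL_real]
  fin_cases k <;> fin_cases m <;>
    simp [tauSort, tauIdx, xvar, realOps, z1, z2, z3,
      q010, q100, q020, q200, q030, q300, q101, q110,
      q021, q102, q120, q201, q210, q031, q103, q130,
      q301, q310, q202, q220, q032, q203, q230, q302,
      q320, q303, q330, q121, q211, q131, q311, q212,
      q221, q132, q213, q231, q312, q321, q313, q331,
      q232, q322, q323, q332, d0, d1, d2, d3]

theorem tauG_real2 (hA : Admissible (n := 4) l v τ) (k m : Fin 5) :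
    tauG realOps (fun n => (xvar l v τ a b).getD n 0) 2 k m = τ 2 k m := by
  have r := hA.tau_right
  have f := hA.tau_left
  have z1 : ∀ k m, τ 4 k m = 0 := hA.tau_last
  have z2 : ∀ i m, τ i 4 m = 0 := fun i m => by rw [f, z1]
  have z3 : ∀ i k, τ i k 4 = 0 := fun i k => by rw [r, z2]
  have tr : ∀ i : Fin 5, τ i 0 0 + τ i 1 1 + τ i 2 2 + τ i 3 3 = 0 := fun i => by
    have := hA.tau_trace i
    rw [Fin.sum_univ_five, z2, add_zero] at this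
    exact this
  have q010 : τ 0 1 0 = τ 0 0 1 := r 0 1 0
  have q100 : τ 1 0 0 = τ 0 0 1 := (f 1 0 0).trans (r 0 1 0)
  have q020 : τ 0 2 0 = τ 0 0 2 := r 0 2 0
  have q200 : τ 2 0 0 = τ 0 0 2 := (f 2 0 0).trans (r 0 2 0)
  have q030 : τ 0 3 0 = τ 0 0 3 := r 0 3 0
  have q300 : τ 3 0 0 = τ 0 0 3 := (f 3 0 0).trans (r 0 3 0)
  have q101 : τ 1 0 1 = τ 0 1 1 := f 1 0 1
  have q110 : τ 1 1 0 = τ 0 1 1 := (r 1 1 0).trans (f 1 0 1)
  have q021 : τ 0 2 1 = τ 0 1 2 := r 0 2 1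
  have q102 : τ 1 0 2 = τ 0 1 2 := f 1 0 2
  have q120 : τ 1 2 0 = τ 0 1 2 := (r 1 2 0).trans (f 1 0 2)
  have q201 : τ 2 0 1 = τ 0 1 2 := (f 2 0 1).trans (r 0 2 1)
  have q210 : τ 2 1 0 = τ 0 1 2 := ((f 2 1 0).trans (r 1 2 0)).trans (f 1 0 2)
  have q031 : τ 0 3 1 = τ 0 1 3 := r 0 3 1
  have q103 : τ 1 0 3 = τ 0 1 3 := f 1 0 3
  have q130 : τ 1 3 0 = τ 0 1 3 := (r 1 3 0).trans (f 1 0 3)
  have q301 : τ 3 0 1 = τ 0 1 3 := (f 3 0 1).trans (r 0 3 1)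
  have q310 : τ 3 1 0 = τ 0 1 3 := ((f 3 1 0).trans (r 1 3 0)).trans (f 1 0 3)
  have q202 : τ 2 0 2 = τ 0 2 2 := f 2 0 2
  have q220 : τ 2 2 0 = τ 0 2 2 := (r 2 2 0).trans (f 2 0 2)
  have q032 : τ 0 3 2 = τ 0 2 3 := r 0 3 2
  have q203 : τ 2 0 3 = τ 0 2 3 := f 2 0 3
  have q230 : τ 2 3 0 = τ 0 2 3 := (r 2 3 0).trans (f 2 0 3)
  have q302 : τ 3 0 2 = τ 0 2 3 := (f 3 0 2).trans (r 0 3 2)
  have q320 : τ 3 2 0 = τ 0 2 3 := ((f 3 2 0).trans (r 2 3 0)).trans (f 2 0 3)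
  have q303 : τ 3 0 3 = τ 0 3 3 := f 3 0 3
  have q330 : τ 3 3 0 = τ 0 3 3 := (r 3 3 0).trans (f 3 0 3)
  have q121 : τ 1 2 1 = τ 1 1 2 := r 1 2 1
  have q211 : τ 2 1 1 = τ 1 1 2 := (f 2 1 1).trans (r 1 2 1)
  have q131 : τ 1 3 1 = τ 1 1 3 := r 1 3 1
  have q311 : τ 3 1 1 = τ 1 1 3 := (f 3 1 1).trans (r 1 3 1)
  have q212 : τ 2 1 2 = τ 1 2 2 := f 2 1 2
  have q221 : τ 2 2 1 = τ 1 2 2 := (r 2 2 1).trans (f 2 1 2)
  have q132 : τ 1 3 2 = τ 1 2 3 := r 1 3 2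
  have q213 : τ 2 1 3 = τ 1 2 3 := f 2 1 3
  have q231 : τ 2 3 1 = τ 1 2 3 := (r 2 3 1).trans (f 2 1 3)
  have q312 : τ 3 1 2 = τ 1 2 3 := (f 3 1 2).trans (r 1 3 2)
  have q321 : τ 3 2 1 = τ 1 2 3 := ((f 3 2 1).trans (r 2 3 1)).trans (f 2 1 3)
  have q313 : τ 3 1 3 = τ 1 3 3 := f 3 1 3
  have q331 : τ 3 3 1 = τ 1 3 3 := (r 3 3 1).trans (f 3 1 3)
  have q232 : τ 2 3 2 = τ 2 2 3 := r 2 3 2
  have q322 : τ 3 2 2 = τ 2 2 3 := (f 3 2 2).trans (r 2 3 2)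
  have q323 : τ 3 2 3 = τ 2 3 3 := f 3 2 3
  have q332 : τ 3 3 2 = τ 2 3 3 := (r 3 3 2).trans (f 3 2 3)
  have d0 : τ 0 3 3 = -τ 0 0 0 + (-τ 0 1 1 + -τ 0 2 2) := by
    linarith [tr 0]
  have d1 : τ 1 3 3 = -τ 0 0 1 + (-τ 1 1 1 + -τ 1 2 2) := by
    linarith [tr 1, q100]
  have d2 : τ 2 3 3 = -τ 0 0 2 + (-τ 1 1 2 + -τ 2 2 2) := by
    linarith [tr 2, q200, q211]
  have d3 : τ 3 3 3 = -τ 0 0 3 + (-τ 1 1 3 + -τ 2 2 3) := by
    linarith [tr 3, q300, q311, q322]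
  simp only [tauG, sumL_real]
  fin_cases k <;> fin_cases m <;>
    simp [tauSort, tauIdx, xvar, realOps, z1, z2, z3,
      q010, q100, q020, q200, q030, q300, q101, q110,
      q021, q102, q120, q201, q210, q031, q103, q130,
      q301, q310, q202, q220, q032, q203, q230, q302,
      q320, q303, q330, q121, q211, q131, q311, q212,
      q221, q132, q213, q231, q312, q321, q313, q331,
      q232, q322, q323, q332, d0, d1, d2, d3]

theorem tauG_real3 (hA : Admissible (n := 4) l v τ) (k m : Fin 5) :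
    tauG realOps (fun n => (xvar l v τ a b).getD n 0) 3 k m = τ 3 k m := by
  have r := hA.tau_right
  have f := hA.tau_left
  have z1 : ∀ k m, τ 4 k m = 0 := hA.tau_last
  have z2 : ∀ i m, τ i 4 m = 0 := fun i m => by rw [f, z1]
  have z3 : ∀ i k, τ i k 4 = 0 := fun i k => by rw [r, z2]
  have tr : ∀ i : Fin 5, τ i 0 0 + τ i 1 1 + τ i 2 2 + τ i 3 3 = 0 := fun i => by
    have := hA.tau_trace i
    rw [Fin.sum_univ_five, z2, add_zero] at this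
    exact this
  have q010 : τ 0 1 0 = τ 0 0 1 := r 0 1 0
  have q100 : τ 1 0 0 = τ 0 0 1 := (f 1 0 0).trans (r 0 1 0)
  have q020 : τ 0 2 0 = τ 0 0 2 := r 0 2 0
  have q200 : τ 2 0 0 = τ 0 0 2 := (f 2 0 0).trans (r 0 2 0)
  have q030 : τ 0 3 0 = τ 0 0 3 := r 0 3 0
  have q300 : τ 3 0 0 = τ 0 0 3 := (f 3 0 0).trans (r 0 3 0)
  have q101 : τ 1 0 1 = τ 0 1 1 := f 1 0 1
  have q110 : τ 1 1 0 = τ 0 1 1 := (r 1 1 0).trans (f 1 0 1)
  have q021 : τ 0 2 1 = τ 0 1 2 := r 0 2 1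
  have q102 : τ 1 0 2 = τ 0 1 2 := f 1 0 2
  have q120 : τ 1 2 0 = τ 0 1 2 := (r 1 2 0).trans (f 1 0 2)
  have q201 : τ 2 0 1 = τ 0 1 2 := (f 2 0 1).trans (r 0 2 1)
  have q210 : τ 2 1 0 = τ 0 1 2 := ((f 2 1 0).trans (r 1 2 0)).trans (f 1 0 2)
  have q031 : τ 0 3 1 = τ 0 1 3 := r 0 3 1
  have q103 : τ 1 0 3 = τ 0 1 3 := f 1 0 3
  have q130 : τ 1 3 0 = τ 0 1 3 := (r 1 3 0).trans (f 1 0 3)
  have q301 : τ 3 0 1 = τ 0 1 3 := (f 3 0 1).trans (r 0 3 1)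
  have q310 : τ 3 1 0 = τ 0 1 3 := ((f 3 1 0).trans (r 1 3 0)).trans (f 1 0 3)
  have q202 : τ 2 0 2 = τ 0 2 2 := f 2 0 2
  have q220 : τ 2 2 0 = τ 0 2 2 := (r 2 2 0).trans (f 2 0 2)
  have q032 : τ 0 3 2 = τ 0 2 3 := r 0 3 2
  have q203 : τ 2 0 3 = τ 0 2 3 := f 2 0 3
  have q230 : τ 2 3 0 = τ 0 2 3 := (r 2 3 0).trans (f 2 0 3)
  have q302 : τ 3 0 2 = τ 0 2 3 := (f 3 0 2).trans (r 0 3 2)
  have q320 : τ 3 2 0 = τ 0 2 3 := ((f 3 2 0).trans (r 2 3 0)).trans (f 2 0 3)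
  have q303 : τ 3 0 3 = τ 0 3 3 := f 3 0 3
  have q330 : τ 3 3 0 = τ 0 3 3 := (r 3 3 0).trans (f 3 0 3)
  have q121 : τ 1 2 1 = τ 1 1 2 := r 1 2 1
  have q211 : τ 2 1 1 = τ 1 1 2 := (f 2 1 1).trans (r 1 2 1)
  have q131 : τ 1 3 1 = τ 1 1 3 := r 1 3 1
  have q311 : τ 3 1 1 = τ 1 1 3 := (f 3 1 1).trans (r 1 3 1)
  have q212 : τ 2 1 2 = τ 1 2 2 := f 2 1 2
  have q221 : τ 2 2 1 = τ 1 2 2 := (r 2 2 1).trans (f 2 1 2)
  have q132 : τ 1 3 2 = τ 1 2 3 := r 1 3 2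
  have q213 : τ 2 1 3 = τ 1 2 3 := f 2 1 3
  have q231 : τ 2 3 1 = τ 1 2 3 := (r 2 3 1).trans (f 2 1 3)
  have q312 : τ 3 1 2 = τ 1 2 3 := (f 3 1 2).trans (r 1 3 2)
  have q321 : τ 3 2 1 = τ 1 2 3 := ((f 3 2 1).trans (r 2 3 1)).trans (f 2 1 3)
  have q313 : τ 3 1 3 = τ 1 3 3 := f 3 1 3
  have q331 : τ 3 3 1 = τ 1 3 3 := (r 3 3 1).trans (f 3 1 3)
  have q232 : τ 2 3 2 = τ 2 2 3 := r 2 3 2
  have q322 : τ 3 2 2 = τ 2 2 3 := (f 3 2 2).trans (r 2 3 2)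
  have q323 : τ 3 2 3 = τ 2 3 3 := f 3 2 3
  have q332 : τ 3 3 2 = τ 2 3 3 := (r 3 3 2).trans (f 3 2 3)
  have d0 : τ 0 3 3 = -τ 0 0 0 + (-τ 0 1 1 + -τ 0 2 2) := by
    linarith [tr 0]
  have d1 : τ 1 3 3 = -τ 0 0 1 + (-τ 1 1 1 + -τ 1 2 2) := by
    linarith [tr 1, q100]
  have d2 : τ 2 3 3 = -τ 0 0 2 + (-τ 1 1 2 + -τ 2 2 2) := by
    linarith [tr 2, q200, q211]
  have d3 : τ 3 3 3 = -τ 0 0 3 + (-τ 1 1 3 + -τ 2 2 3) := by
    linarith [tr 3, q300, q311, q322]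
  simp only [tauG, sumL_real]
  fin_cases k <;> fin_cases m <;>
    simp [tauSort, tauIdx, xvar, realOps, z1, z2, z3,
      q010, q100, q020, q200, q030, q300, q101, q110,
      q021, q102, q120, q201, q210, q031, q103, q130,
      q301, q310, q202, q220, q032, q203, q230, q302,
      q320, q303, q330, q121, q211, q131, q311, q212,
      q221, q132, q213, q231, q312, q321, q313, q331,
      q232, q322, q323, q332, d0, d1, d2, d3]

theorem tauG_real (hA : Admissible (n := 4) l v τ) (i k m : Fin 5) :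
    tauG realOps (fun n => (xvar l v τ a b).getD n 0) i k m = τ i k m := by
  fin_cases i
  · exact tauG_real0 a b hA k m
  · exact tauG_real1 a b hA k m
  · exact tauG_real2 a b hA k m
  · exact tauG_real3 a b hA k m
  · have h : τ 4 k m = 0 := hA.tau_last k m
    simp only [tauG, sumL_real]
    fin_cases k <;> fin_cases m <;> simpa [tauSort, tauIdx] using h.symm

theorem lG_real (hA : Admissible (n := 4) l v τ) (i : Fin 5) :
    lG realOps (fun n => (xvar l v τ a b).getD n 0) i = l i := by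
  have h4 : l 4 = 0 := hA.l_last
  fin_cases i <;> simp [lG, xvar, realOps, h4]

theorem vG_real (i : Fin 5) : vG (fun n => (xvar l v τ a b).getD n 0) i = v i := by
  fin_cases i <;> simp [vG, xvar]

/-- **Identification.** -/
theorem QG_real (hA : Admissible (n := 4) l v τ) :
    QG realOps (fun n => (xvar l v τ a b).getD n 0) =
      640000 * Qval (n := 4) D5.al D5.table l v τ a b := by
  set x := fun n => (xvar l v τ a b).getD n 0
  have h16 : x 16 = a := by simp [x, xvar]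
  have h17 : x 17 = b := by simp [x, xvar]
  have hl := lG_real (a := a) (b := b) hA
  have hv := vG_real (l := l) (v := v) (τ := τ) a b
  have ht := tauG_real (a := a) (b := b) hA
  have hj : jetG realOps x = jet0 (n := 4) l v := by
    simp only [jetG, jet0, x, hl, hv]
    simp [realOps, show (Fin.last 4) = 4 from rfl]
  have hq : ∀ k, qdirG realOps x k = qdir (n := 4) l v τ a b k := fun k => by
    simp only [qdirG, qdir, bordG, bord, h16, h17, x, hl, hv, ht]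
    simp [realOps, show (Fin.last 4) = 4 from rfl]
  have hlj : ljetG realOps x = ljet0 (n := 4) l v := by
    simp only [ljetG, ljet0, x, hl, hv]
    refine Prod.ext ?_ (Prod.ext ?_ ?_)
    · funext i m
      by_cases h : i = m <;> simp [h, realOps]
      norm_num
    · funext i; simp [realOps]
    · simp [realOps, show (Fin.last 4) = 4 from rfl]
      norm_num
  have hs : sqA (jet0 (n := 4) l v) = 1 := by simpa [sqA, jet0] using hA.l_sq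
  rw [QG, hj, hlj, sum5_real]
  simp only [hq, sumL_real, h17, dsG_real]
  have e1 : ∀ q, (itable.map fun t => dtermG realOps t (jet0 (n := 4) l v) q).sum =
      640000 * dOmV D5.al D5.table (jet0 (n := 4) l v) q q := fun q => by
    rw [dOmV, ← itable_eq, List.map_map, ← List.sum_map_mul_left]
    exact congrArg List.sum (List.map_congr_left fun t _ => dtermG_real t _ q hs)
  have e2 : ∀ q, (itable.map fun t => termG realOps t (jet0 (n := 4) l v) q).sum =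
      640000 * omV D5.al D5.table (jet0 (n := 4) l v) q := fun q => by
    rw [omV, ← itable_eq, List.map_map, ← List.sum_map_mul_left]
    exact congrArg List.sum (List.map_congr_left fun t _ => termG_real t _ q hs)
  rw [show qdir (n := 4) l v τ a b = fun k => qdir (n := 4) l v τ a b k from rfl]
  simp only [e1, e2, Qval, mul_add, Finset.mul_sum]
  simp only [realOps, D5.al]
  congr 1
  · exact Finset.sum_congr rfl fun k _ => by push_cast; ring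
  · push_cast; ring

end Vale.Agent.P098.Exact.Sos
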