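import Vale.Agent.P098.Exact.Sos.Poly

/-! The layout of the coefficient table and of the basis monomials. -/

namespace Vale.Agent.P098.Exact.Sos

/-- A monomial `z_a z_b v^g`. -/
structure Gam where
  /-- first coordinate -/
  a : ℕ
  /-- second coordinate -/
  b : ℕ
  /-- exponents of the gradient -/
  g : List ℕ

/-- Value of a monomial at coordinates `z` and `v`. -/
noncomputable def Gam.ev (G : Gam) (z v : ℕ → ℝ) : ℝ :=
  z G.a * z G.b * (v 0 ^ G.g.getD 0 0 * v 1 ^ G.g.getD 1 0 * v 2 ^ G.g.getD 2 0 *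
    v 3 ^ G.g.getD 3 0 * v 4 ^ G.g.getD 4 0)

/-- Exponents of the four eigenvalues and the homogenising exponent. -/
structure Beta where
  /-- exponent of `l 0` -/
  b0 : ℕ
  /-- exponent of `l 1` -/
  b1 : ℕ
  /-- exponent of `l 2` -/
  b2 : ℕ
  /-- exponent of `l 3` -/
  b3 : ℕ
  /-- exponent of the homogenising factor -/
  b4 : ℕ

/-- Value of an eigenvalue monomial. -/
noncomputable def Beta.ev (β : Beta) (l : ℕ → ℝ) : ℝ :=
  l 0 ^ β.b0 * l 1 ^ β.b1 * l 2 ^ β.b2 * l 3 ^ β.b3

/-- Flat exponent list of `z_a z_b v^g l^β`, trailing zeros removed. -/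
def expo (G : Gam) (β : Beta) : List ℕ :=
  (List.range 18).map (fun i => (if i = G.a then 1 else 0) + (if i = G.b then 1 else 0)) ++
    [G.g.getD 0 0, G.g.getD 1 0, G.g.getD 2 0, G.g.getD 3 0, G.g.getD 4 0, β.b0, β.b1, β.b2, β.b3]

/-- Remove trailing zeros. -/
def norm : List ℕ → List ℕ
  | [] => []
  | e :: l =>
    match e, norm l with
    | 0, [] => []
    | e, l' => e :: l'

/-- Two level lookup. -/
def look {α : Type} (d : α) (T : List (List α)) (i : ℕ) : α :=
  (T.getD (i / 16) []).getD (i % 16) d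

end Vale.Agent.P098.Exact.Sos
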