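import Vale.Agent.P098.Exact.Sos.TM
import Vale.Agent.P098.Exact.Sos.Table0

/-! Squares in the chart and the homogenised eigenvalues on them. -/

namespace Vale.Agent.P098.Exact.Sos

/-- A square in the chart, in units `1/1024`. -/
structure Box where
  /-- centre, first coordinate -/
  A : ℤ
  /-- centre, second coordinate -/
  B : ℤ
  /-- half width -/
  r : ℤ

/-- The quadratic `e*(D^2 - a^2 - b^2) + 2*D*(f*a + g*b)` at `a = A + r s`, `b = B + r t`. -/
def Box.quad (x : Box) (e f g : ℤ) : Quad :=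
  ⟨e * (1048576 - x.A ^ 2 - x.B ^ 2) + 2048 * (f * x.A + g * x.B),
    x.r * (2048 * f - 2 * e * x.A), x.r * (2048 * g - 2 * e * x.B), -e * x.r ^ 2, -e * x.r ^ 2⟩

/-- Numerators of the eigenvalues. -/
def Box.num (x : Box) : ℕ → Quad
  | 0 => x.quad 1 1 1
  | 1 => x.quad 1 (-1) (-1)
  | 2 => x.quad (-1) 1 (-1)
  | _ => x.quad (-1) (-1) 1

/-- Common denominator. -/
def Box.den (x : Box) : Quad :=
  ⟨2 * (1048576 + x.A ^ 2 + x.B ^ 2), 4 * x.r * x.A, 4 * x.r * x.B, 2 * x.r ^ 2, 2 * x.r ^ 2⟩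

/-- Units of the stored targets. -/
def unit : ℕ := 2 ^ 126

end Vale.Agent.P098.Exact.Sos
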