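import Vale.Agent.P098.Exact.Sos.Check
import Vale.Agent.P098.Exact.Sos.Target

/-! Exact products of quadratics in two variables, each packed into one integer. -/

namespace Vale.Agent.P098.Exact.Sos

/-- Monomial of a slot: `s^(k % 15) * t^(k / 15)`. -/
noncomputable def stMon (s t : ℝ) (k : ℕ) : ℝ := s ^ (k % 15) * t ^ (k / 15)

/-- A packed polynomial of total degree at most `D`. -/
def PRep (D : ℕ) (Z B : ℤ) (s t V : ℝ) : Prop :=
  ∃ f : ℕ → ℤ, Z = pk 256 225 f ∧ (∀ k, |f k| ≤ B) ∧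
    (∀ k, f k ≠ 0 → k < 225 ∧ k % 15 + k / 15 ≤ D) ∧
    ∑ k ∈ Finset.range 225, (f k : ℝ) * stMon s t k = V

theorem PRep.add {D : ℕ} {Z Z' B B' : ℤ} {s t V V' : ℝ} (h : PRep D Z B s t V)
    (h' : PRep D Z' B' s t V') : PRep D (Z + Z') (B + B') s t (V + V') := by
  obtain ⟨f, h1, h2, h3, h4⟩ := h
  obtain ⟨g, g1, g2, g3, g4⟩ := h'
  refine ⟨fun k => f k + g k, ?_, fun k => (abs_add_le _ _).trans (add_le_add (h2 k) (g2 k)),
    fun k hk => ?_, ?_⟩
  · simp only [h1, g1, pk, add_mul, Finset.sum_add_distrib]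
  · rcases eq_or_ne (f k) 0 with e | e
    · exact g3 k (by simpa [e] using hk)
    · exact h3 k e
  · simp only [← h4, ← g4, Int.cast_add, add_mul, Finset.sum_add_distrib]

theorem PRep.smul {D : ℕ} {Z B : ℤ} {s t V : ℝ} (c : ℤ) (h : PRep D Z B s t V) :
    PRep D (c * Z) (|c| * B) s t (c * V) := by
  obtain ⟨f, h1, h2, h3, h4⟩ := h
  refine ⟨fun k => c * f k, ?_, fun k => ?_, fun k hk => h3 k (right_ne_zero_of_mul hk), ?_⟩
  · simp only [h1, pk, Finset.mul_sum, mul_assoc]
  · rw [abs_mul]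
    exact mul_le_mul_of_nonneg_left (h2 k) (abs_nonneg c)
  · simp only [← h4, Int.cast_mul, Finset.mul_sum, mul_assoc]

theorem PRep.mono {D : ℕ} {Z B B' : ℤ} {s t V : ℝ} (hB : B ≤ B') (h : PRep D Z B s t V) :
    PRep D Z B' s t V := by
  obtain ⟨f, h1, h2, h3, h4⟩ := h
  exact ⟨f, h1, fun k => (h2 k).trans hB, h3, h4⟩

theorem PRep.weaken {D D' : ℕ} {Z B : ℤ} {s t V : ℝ} (hD : D ≤ D') (h : PRep D Z B s t V) :
    PRep D' Z B s t V := by
  obtain ⟨f, h1, h2, h3, h4⟩ := h
  exact ⟨f, h1, h2, fun k hk => ⟨(h3 k hk).1, (h3 k hk).2.trans hD⟩, h4⟩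

theorem PRep.zero (D : ℕ) (s t : ℝ) : PRep D 0 0 s t 0 :=
  ⟨fun _ => 0, by simp [pk], by simp, by simp, by simp⟩

theorem PRep.one (s t : ℝ) : PRep 0 1 1 s t 1 := by
  refine ⟨fun k => if k = 0 then 1 else 0, ?_, fun k => by dsimp only; split <;> simp,
    fun k hk => ?_, ?_⟩
  · simp [pk, Finset.sum_ite_eq']
  · rcases eq_or_ne k 0 with rfl | e
    · simp
    · simp [e] at hk
  · simp [Finset.sum_ite_eq', stMon, apply_ite (fun q : ℤ => (q : ℝ)), ite_mul]

/-- Multiplication by `s^di * t^dj`. -/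
theorem PRep.shift {D : ℕ} {Z B : ℤ} {s t V : ℝ} (di dj : ℕ) (hD : D + di + dj ≤ 14)
    (hB : 0 ≤ B) (h : PRep D Z B s t V) :
    PRep (D + di + dj) ((base 256 : ℤ) ^ (di + 15 * dj) * Z) B s t (s ^ di * t ^ dj * V) := by
  obtain ⟨f, h1, h2, h3, h4⟩ := h
  set d := di + 15 * dj with hd
  refine ⟨fun m => if d ≤ m then f (m - d) else 0, ?_, fun k => ?_, fun m hm => ?_, ?_⟩
  · rw [h1, pk, pk, Finset.mul_sum, show (225 : ℕ) = d + (225 - d) by omega,
      Finset.sum_range_add (fun k => (if d ≤ k then f (k - d) else 0) * (base 256 : ℤ) ^ k) d,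
      Finset.sum_eq_zero (s := Finset.range d) fun k hk => by
        simp [not_le.2 (Finset.mem_range.1 hk)], zero_add]
    symm
    rw [show d + (225 - d) = 225 - d + d by omega, Finset.sum_range_add,
      Finset.sum_eq_zero (s := Finset.range d) fun k hk => by
        have hz : f (225 - d + k) = 0 := by
          by_contra hne
          obtain ⟨a, b⟩ := h3 _ hne
          omega
        simp [hz], add_zero]
    exact Finset.sum_congr rfl fun k _ => by simp [pow_add]; ring
  · dsimp only; split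
    · exact h2 _
    · simpa using hB
  · dsimp only at hm
    split at hm
    · obtain ⟨a, b⟩ := h3 _ hm
      omega
    · simp at hm
  · rw [← h4, Finset.mul_sum, show (225 : ℕ) = d + (225 - d) by omega, Finset.sum_range_add,
      Finset.sum_eq_zero (s := Finset.range d) fun k hk => by
        simp [not_le.2 (Finset.mem_range.1 hk)], zero_add]
    symm
    rw [show d + (225 - d) = 225 - d + d by omega, Finset.sum_range_add,
      Finset.sum_eq_zero (s := Finset.range d) fun k hk => by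
        have hz : f (225 - d + k) = 0 := by
          by_contra hne
          obtain ⟨a, b⟩ := h3 _ hne
          omega
        simp [hz], add_zero]
    refine Finset.sum_congr rfl fun k hk => ?_
    rcases eq_or_ne (f k) 0 with e | e
    · simp [e]
    obtain ⟨a, b⟩ := h3 k e
    dsimp only
    rw [if_pos (Nat.le_add_right d k), Nat.add_sub_cancel_left, stMon, stMon,
      show (d + k) % 15 = di + k % 15 by omega, show (d + k) / 15 = dj + k / 15 by omega,
      pow_add, pow_add]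
    ring

/-- A quadratic packed into one integer. -/
def Quad.pack (q : Quad) : ℤ :=
  Int.add (Int.add (Int.add (Int.add q.c0 (Int.mul q.cs (Int.ofNat (Nat.shiftLeft 1 256))))
    (Int.mul q.css (Int.ofNat (Nat.shiftLeft 1 512))))
    (Int.mul q.ct (Int.ofNat (Nat.shiftLeft 1 3840))))
    (Int.mul q.ctt (Int.ofNat (Nat.shiftLeft 1 7680)))

theorem Quad.pack_eq (q : Quad) : q.pack = q.c0 + q.cs * (base 256 : ℤ) ^ 1 +
    q.css * (base 256 : ℤ) ^ 2 + q.ct * (base 256 : ℤ) ^ 15 + q.ctt * (base 256 : ℤ) ^ 30 := by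
  show q.c0 + q.cs * ((1 <<< 256 : ℕ) : ℤ) + q.css * ((1 <<< 512 : ℕ) : ℤ) +
    q.ct * ((1 <<< 3840 : ℕ) : ℤ) + q.ctt * ((1 <<< 7680 : ℕ) : ℤ) = _
  simp only [Nat.one_shiftLeft, base, Nat.cast_pow, Nat.cast_ofNat, ← pow_mul]

theorem PRep.mulQuad {D : ℕ} {Z B : ℤ} {s t V : ℝ} (q : Quad) (hD : D + 2 ≤ 14) (hB : 0 ≤ B)
    (h : PRep D Z B s t V) :
    PRep (D + 2) (q.pack * Z) ((q.abs : ℤ) * B) s t (q.ev s t * V) := by
  have H : ∀ (di dj : ℕ), di + dj ≤ 2 → PRep (D + 2) ((base 256 : ℤ) ^ (di + 15 * dj) * Z) B s t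
      (s ^ di * t ^ dj * V) := fun di dj hd =>
    PRep.weaken (by omega) (PRep.shift di dj (by omega) hB h)
  have r := ((((PRep.smul q.c0 (H 0 0 (by norm_num))).add (PRep.smul q.cs (H 1 0 (by norm_num)))).add
    (PRep.smul q.css (H 2 0 (by norm_num)))).add (PRep.smul q.ct (H 0 1 (by norm_num)))).add
    (PRep.smul q.ctt (H 0 2 (by norm_num)))
  convert r using 1
  · rw [Quad.pack_eq]; ring
  · simp only [Quad.abs, Nat.cast_add, Nat.cast_natAbs, Int.cast_id]; ring
  · simp only [Quad.ev]; ring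

/-- Repeated multiplication by a packed quadratic. -/
noncomputable def powQ (q : ℤ) (k : ℕ) (m : ℤ) : ℤ :=
  Nat.rec (motive := fun _ => ℤ) m (fun _ ih => Int.mul q ih) k

theorem PRep.powQuad {D : ℕ} {Z : ℤ} {s t V : ℝ} {M B : ℤ} (q : Quad) (hq : (q.abs : ℤ) ≤ M)
    (hB : 0 ≤ B) (h : PRep D Z B s t V) :
    ∀ k, D + 2 * k ≤ 14 → PRep (D + 2 * k) (powQ q.pack k Z) (M ^ k * B) s t (q.ev s t ^ k * V)
  | 0, _ => by simpa [powQ] using h
  | k + 1, hk => by
    have hM : 0 ≤ M := (Int.natCast_nonneg _).trans hq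
    have r := PRep.mulQuad q (by omega) (mul_nonneg (pow_nonneg hM k) hB)
      (PRep.powQuad q hq hB h k (by omega))
    rw [show D + 2 * (k + 1) = D + 2 * k + 2 by ring, pow_succ', pow_succ', mul_assoc, mul_assoc]
    exact PRep.mono (mul_le_mul_of_nonneg_right hq (mul_nonneg (pow_nonneg hM k) hB)) r

/-- Packed model of a homogenised eigenvalue monomial. -/
noncomputable def Box.pkMon (x : Box) (β : Beta) : ℤ :=
  powQ (x.num 0).pack β.b0 (powQ (x.num 1).pack β.b1 (powQ (x.num 2).pack β.b2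
    (powQ (x.num 3).pack β.b3 (powQ x.den.pack β.b4 1))))

/-- All quadratics of a box are small. -/
def Box.small (x : Box) : Bool :=
  decide (x.den.abs ≤ 2 ^ 24) && (List.range 4).all fun i => decide ((x.num i).abs ≤ 2 ^ 24)

theorem Box.pkMon_spec (x : Box) (hx : x.small = true) (β : Beta)
    (h7 : β.b0 + β.b1 + β.b2 + β.b3 + β.b4 = 7) (s t : ℝ) :
    PRep 14 (x.pkMon β) ((2 ^ 24) ^ 7) s t
      (β.ev (fun i => (x.num i).ev s t) * x.den.ev s t ^ β.b4) := by
  simp only [Box.small, Bool.and_eq_true, decide_eq_true_eq, List.all_eq_true, List.mem_range] at hx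
  have hn : ∀ i, i < 4 → ((x.num i).abs : ℤ) ≤ 2 ^ 24 := fun i hi => by
    exact_mod_cast hx.2 i hi
  have hM : (0 : ℤ) ≤ 2 ^ 24 := by norm_num
  have h4 := PRep.powQuad x.den (M := 2 ^ 24) (by exact_mod_cast hx.1) zero_le_one (PRep.one s t)
    β.b4 (by omega)
  have h3 := PRep.powQuad (x.num 3) (hn 3 (by norm_num)) (by positivity) h4 β.b3 (by omega)
  have h2 := PRep.powQuad (x.num 2) (hn 2 (by norm_num)) (by positivity) h3 β.b2 (by omega)
  have h1 := PRep.powQuad (x.num 1) (hn 1 (by norm_num)) (by positivity) h2 β.b1 (by omega)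
  have h0 := PRep.powQuad (x.num 0) (hn 0 (by norm_num)) (by positivity) h1 β.b0 (by omega)
  have r := h0
  rw [show 0 + 2 * β.b4 + 2 * β.b3 + 2 * β.b2 + 2 * β.b1 + 2 * β.b0 = 14 by omega] at r
  have eB : ((2 : ℤ) ^ 24) ^ β.b0 * ((2 ^ 24) ^ β.b1 * ((2 ^ 24) ^ β.b2 * ((2 ^ 24) ^ β.b3 *
      ((2 ^ 24) ^ β.b4 * 1)))) = (2 ^ 24) ^ 7 := by
    rw [← h7]; simp only [pow_add]; ring
  rw [eB] at r
  convert r using 1
  all_goals first | rfl | (unfold Beta.ev; ring)

/-- A coefficient function: eigenvalue monomials and integer coefficients. -/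
abbrev Row : Type := List (Beta × ℤ)

/-- Packed model of a coefficient function. -/
noncomputable def Box.pkRow (x : Box) (r : Row) : ℤ :=
  List.rec (motive := fun _ => ℤ) (Int.ofNat 0)
    (fun p _ ih => Prod.rec (motive := fun _ => ℤ) (fun β c => Int.add ih (Int.mul c (x.pkMon β))) p) r

/-- Value of a coefficient function. -/
noncomputable def rowVal (f : Beta → ℝ) : Row → ℝ
  | [] => 0
  | p :: L => rowVal f L + p.2 * f p.1

/-- Total weight of a coefficient function. -/
def rowWeight : Row → ℕ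
  | [] => 0
  | p :: L => p.2.natAbs + rowWeight L

/-- Homogenised of degree seven, with bounded weight. -/
def rowOK' (r : Row) : Bool :=
  r.all (fun p => decide (p.1.b0 + p.1.b1 + p.1.b2 + p.1.b3 + p.1.b4 = 7)) &&
    decide (rowWeight r ≤ 2 ^ 70)

theorem Box.pkRow_spec (x : Box) (hx : x.small = true) (s t : ℝ) :
    ∀ r : Row, r.all (fun p => decide (p.1.b0 + p.1.b1 + p.1.b2 + p.1.b3 + p.1.b4 = 7)) = true →
    PRep 14 (x.pkRow r) ((rowWeight r : ℤ) * (2 ^ 24) ^ 7) s t
      (rowVal (fun β => β.ev (fun i => (x.num i).ev s t) * x.den.ev s t ^ β.b4) r)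
  | [], _ => by simpa [Box.pkRow, rowWeight, rowVal] using PRep.zero 14 s t
  | (β, c) :: L, h => by
    simp only [List.all_cons, Bool.and_eq_true, decide_eq_true_eq] at h
    have r := (x.pkRow_spec hx s t L h.2).add (PRep.smul c (x.pkMon_spec hx β h.1 s t))
    have e : x.pkRow ((β, c) :: L) = x.pkRow L + c * x.pkMon β := rfl
    rw [e]
    convert r using 1
    · simp only [rowWeight, Nat.cast_add, Nat.cast_natAbs, Int.cast_id]
      ring
    · rfl

/-- Horner packing of one row, powers of `t`. -/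
def hz1 : List ℤ → ℤ
  | [] => 0
  | a :: r => a + (base 256 : ℤ) ^ 15 * hz1 r

/-- Packed five by five target; rows are powers of `s`. -/
def pkTgt : List (List ℤ) → ℤ
  | [] => 0
  | r :: c => hz1 r + (base 256 : ℤ) * pkTgt c

theorem hz1_cast : ∀ r, (hz1 r : ℝ) = ev1 r (((base 256 : ℤ) : ℝ) ^ 15)
  | [] => by simp [hz1, ev1]
  | a :: r => by simp [hz1, ev1, hz1_cast r]

theorem pkTgt_cast : ∀ c, (pkTgt c : ℝ) = ev2 c ((base 256 : ℤ) : ℝ) (((base 256 : ℤ) : ℝ) ^ 15)
  | [] => by simp [pkTgt, ev2]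
  | r :: c => by simp [pkTgt, ev2, hz1_cast r, pkTgt_cast c]

/-- Horner packing of unsigned slots, powers of `t`. -/
noncomputable def hn1 (m : ℕ) (r : List ℕ) : ℕ :=
  List.rec (motive := fun _ => ℕ) 0
    (fun N _ ih => Nat.add (Nat.mod (Nat.shiftRight N (Nat.mul 96 m)) (base 96))
      (Nat.shiftLeft ih 3840)) r

/-- Horner packing of unsigned slots. -/
noncomputable def hn2 (m : ℕ) (Ns : List (List ℕ)) : ℕ :=
  List.rec (motive := fun _ => ℕ) 0 (fun r _ ih => Nat.add (hn1 m r) (Nat.shiftLeft ih 256)) Ns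

/-- Horner packing of the slot offsets. -/
noncomputable def ho1 (r : List ℕ) : ℕ :=
  List.rec (motive := fun _ => ℕ) 0 (fun _ _ ih => Nat.add (half 96) (Nat.shiftLeft ih 3840)) r

/-- Horner packing of the slot offsets. -/
noncomputable def ho2 (Ns : List (List ℕ)) : ℕ :=
  List.rec (motive := fun _ => ℕ) 0 (fun r _ ih => Nat.add (ho1 r) (Nat.shiftLeft ih 256)) Ns

theorem hn1_eq (m : ℕ) : ∀ r : List ℕ,
    (hn1 m r : ℤ) - ho1 r = hz1 (r.map fun N => dg 96 N m)
  | [] => rfl
  | N :: r => by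
    rw [List.map_cons, hz1, ← hn1_eq m r,
      show hn1 m (N :: r) = (N >>> (96 * m)) % base 96 + hn1 m r <<< 3840 from rfl,
      show ho1 (N :: r) = half 96 + ho1 r <<< 3840 from rfl,
      show dg 96 N m = Int.subNatNat ((N >>> (96 * m)) % base 96) (half 96) from rfl,
      Int.subNatNat_eq_coe]
    simp only [Nat.shiftLeft_eq, Nat.cast_add, Nat.cast_mul, Nat.cast_pow, Nat.cast_ofNat, base,
      ← pow_mul]
    ring

theorem hn2_eq (m : ℕ) : ∀ Ns : List (List ℕ),
    (hn2 m Ns : ℤ) - ho2 Ns = pkTgt (Ns.map fun r => r.map fun N => dg 96 N m)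
  | [] => rfl
  | r :: Ns => by
    rw [List.map_cons, pkTgt, ← hn2_eq m Ns, ← hn1_eq m r,
      show hn2 m (r :: Ns) = hn1 m r + hn2 m Ns <<< 256 from rfl,
      show ho2 (r :: Ns) = ho1 r + ho2 Ns <<< 256 from rfl]
    simp only [Nat.shiftLeft_eq, Nat.cast_add, Nat.cast_mul, Nat.cast_pow, Nat.cast_ofNat, base]
    ring

/-- All slots of one index are small. -/
noncomputable def slotsSmall (m : ℕ) (Ns : List (List ℕ)) : Bool :=
  List.rec (motive := fun _ => Bool) true
    (fun r _ ih => List.rec (motive := fun _ => Bool) ih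
      (fun N _ ih2 =>
        Nat.ble 39614081256071028446284283904 (Nat.mod (Nat.shiftRight N (Nat.mul 96 m)) (base 96))
          && Nat.ble (Nat.mod (Nat.shiftRight N (Nat.mul 96 m)) (base 96))
            39614081258432211687696990208 && ih2) r) Ns

theorem slotsSmall_spec (m : ℕ) : ∀ (Ns : List (List ℕ)), slotsSmall m Ns = true →
    ∀ r ∈ Ns, ∀ N ∈ r, (dg 96 N m).natAbs ≤ 2 ^ 70
  | [], _, r, hr, _, _ => by simp at hr
  | [] :: Ns, h, r, hr, N, hN => by
    rcases List.mem_cons.1 hr with rfl | hr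
    · simp at hN
    · exact slotsSmall_spec m Ns h r hr N hN
  | (M :: q) :: Ns, h, r, hr, N, hN => by
    rw [show slotsSmall m ((M :: q) :: Ns) =
      (Nat.ble 39614081256071028446284283904 ((M >>> (96 * m)) % base 96) &&
        Nat.ble ((M >>> (96 * m)) % base 96) 39614081258432211687696990208 &&
          slotsSmall m (q :: Ns)) from rfl] at h
    simp only [Bool.and_eq_true, Nat.ble_eq] at h
    have ih := slotsSmall_spec m (q :: Ns) h.2
    rcases List.mem_cons.1 hr with rfl | hr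
    · rcases List.mem_cons.1 hN with rfl | hN
      · rw [show dg 96 N m = Int.subNatNat ((N >>> (96 * m)) % base 96) (half 96) from rfl,
          Int.subNatNat_eq_coe, show half 96 = 39614081257132168796771975168 by norm_num [half]]
        omega
      · exact ih q (by simp) N hN
    · exact ih r (by simp [hr]) N hN

/-- Bounded five by five array. -/
def small5 (c : List (List ℤ)) : Bool :=
  fits c && c.all fun r => r.all fun a => decide (a.natAbs ≤ 2 ^ 70)

theorem small5_entry {c : List (List ℤ)} (h : small5 c = true) (k l : ℕ) :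
    |(c.getD k []).getD l 0| ≤ 2 ^ 70 := by
  simp only [small5, Bool.and_eq_true, List.all_eq_true, decide_eq_true_eq] at h
  rcases Nat.lt_or_ge k c.length with hk | hk
  · have hm : c.getD k [] ∈ c := by
      rw [List.getD_eq_getElem _ _ hk]
      exact List.getElem_mem hk
    generalize c.getD k [] = r at hm
    rcases Nat.lt_or_ge l r.length with hl | hl
    · rw [List.getD_eq_getElem _ _ hl, Int.abs_eq_natAbs]
      exact_mod_cast h.2 _ hm _ (List.getElem_mem hl)
    · rw [List.getD_eq_default _ _ hl]; norm_num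
  · rw [List.getD_eq_default c _ hk]; simp

theorem PRep.tgt {c : List (List ℤ)} (h : small5 c = true) (s t : ℝ) :
    PRep 14 (pkTgt c) (25 * 2 ^ 70) s t (ev2 c s t) := by
  have hb := small5_entry h
  simp only [small5, fits, Bool.and_eq_true, decide_eq_true_eq, List.all_eq_true] at h
  have hcell : ∀ i j, i < 5 → j < 5 → PRep 14
      ((c.getD i []).getD j 0 * ((base 256 : ℤ) ^ (i + 15 * j) * 1)) (2 ^ 70) s t
      ((((c.getD i []).getD j 0 : ℤ) : ℝ) * (s ^ i * t ^ j * 1)) := fun i j hi hj =>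
    PRep.mono (by rw [mul_one]; exact hb i j)
      (PRep.smul _ (PRep.weaken (by omega) (PRep.shift i j (by omega) zero_le_one (PRep.one s t))))
  have hrow : ∀ i, i < 5 → PRep 14
      (∑ j ∈ Finset.range 5, (c.getD i []).getD j 0 * ((base 256 : ℤ) ^ (i + 15 * j) * 1))
      (5 * 2 ^ 70) s t
      (∑ j ∈ Finset.range 5, (((c.getD i []).getD j 0 : ℤ) : ℝ) * (s ^ i * t ^ j * 1)) := by
    intro i hi
    simp only [Finset.sum_range_succ, Finset.sum_range_zero, zero_add]
    exact PRep.mono (by norm_num) (((((hcell i 0 hi (by norm_num)).add (hcell i 1 hi (by norm_num))).add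
      (hcell i 2 hi (by norm_num))).add (hcell i 3 hi (by norm_num))).add (hcell i 4 hi (by norm_num)))
  have r := ((((hrow 0 (by norm_num)).add (hrow 1 (by norm_num))).add (hrow 2 (by norm_num))).add
    (hrow 3 (by norm_num))).add (hrow 4 (by norm_num))
  convert r using 1
  · refine Int.cast_injective (α := ℝ) ?_
    rw [pkTgt_cast, ev2_sum 5 c _ _ h.1.1 h.1.2]
    simp only [Finset.sum_range_succ, Finset.sum_range_zero, zero_add]
    push_cast
    simp only [← pow_mul, pow_add]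
    ring
  · norm_num
  · rw [ev2_sum 5 c s t h.1.1 h.1.2]
    simp only [Finset.sum_range_succ, Finset.sum_range_zero, zero_add]
    ring

/-- Does the stored target model the coefficient function? -/
noncomputable def tgtOK (x : Box) (r : Row) (Ns : List (List ℕ)) (m E : ℕ) : Bool :=
  slotsSmall m Ns && Nat.ble (absSum 256 225 (Int.sub (x.pkRow r)
      (Int.mul (Int.ofNat unit) (Int.subNatNat (hn2 m Ns) (ho2 Ns)))))
    (Nat.mul E unit)

/-- Entries of the packed targets at one index. -/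
def tgtGrid (Ns : List (List ℕ)) (m : ℕ) : List (List ℤ) := Ns.map fun r => r.map fun N => dg 96 N m

theorem tgtGrid_small {Ns : List (List ℕ)} {m : ℕ} (hd : fits (tgtGrid Ns m) = true)
    (h : slotsSmall m Ns = true) : small5 (tgtGrid Ns m) = true := by
  simp only [small5, Bool.and_eq_true, hd, true_and, List.all_eq_true, decide_eq_true_eq]
  intro r hr a ha
  simp only [tgtGrid, List.mem_map] at hr
  obtain ⟨q, hq, rfl⟩ := hr
  obtain ⟨N, hN, rfl⟩ := List.mem_map.1 ha
  exact slotsSmall_spec m Ns h q hq N hN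

theorem tgt_sound {x : Box} (hx : x.small = true) {r : Row} (hr : rowOK' r = true)
    {Ns : List (List ℕ)} {m E : ℕ} (hd : fits (tgtGrid Ns m) = true)
    (hmain : tgtOK x r Ns m E = true) {s t : ℝ} (hs : |s| ≤ 1) (ht : |t| ≤ 1) :
    |rowVal (fun β => β.ev (fun i => (x.num i).ev s t) * x.den.ev s t ^ β.b4) r / unit -
      ev2 (tgtGrid Ns m) s t| ≤ E := by
  simp only [tgtOK, Bool.and_eq_true, Nat.ble_eq] at hmain
  obtain ⟨c, hc⟩ : ∃ c : Tgt, c = (tgtGrid Ns m, E) := ⟨_, rfl⟩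
  have h : small5 c.1 = true ∧ absSum 256 225 (Int.sub (x.pkRow r)
      (Int.mul (Int.ofNat unit) (pkTgt c.1))) ≤ c.2 * unit := by
    subst hc
    refine ⟨tgtGrid_small hd hmain.1, ?_⟩
    have e : Int.subNatNat (hn2 m Ns) (ho2 Ns) = pkTgt (tgtGrid Ns m) := by
      rw [Int.subNatNat_eq_coe, hn2_eq]; rfl
    simpa [e] using hmain.2
  rw [show tgtGrid Ns m = c.1 by rw [hc], show E = c.2 by rw [hc]]
  simp only [rowOK', Bool.and_eq_true, decide_eq_true_eq] at hr
  have hR := (x.pkRow_spec hx s t r hr.1).add (PRep.smul (-(unit : ℤ)) (PRep.tgt h.1 s t))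
  obtain ⟨f, f1, f2, f3, f4⟩ := hR
  have hbd : ∀ k, |f k| ≤ 2 ^ 70 * (2 ^ 24) ^ 7 + 2 ^ 126 * (25 * 2 ^ 70) := fun k => by
    refine (f2 k).trans (add_le_add ?_ ?_)
    · exact mul_le_mul_of_nonneg_right (by exact_mod_cast hr.2) (by norm_num)
    · simp [unit]
  have hsum : ∑ k ∈ Finset.range 225, (f k).natAbs ≤ 225 * (2 ^ 70 * (2 ^ 24) ^ 7 + 2 ^ 126 * (25 * 2 ^ 70)) := by
    refine (Finset.sum_le_card_nsmul _ _ _ fun k _ => ?_).trans_eq
      (by rw [Finset.card_range, smul_eq_mul])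
    have := hbd k
    rw [Int.abs_eq_natAbs] at this
    exact_mod_cast this
  have e : Int.sub (x.pkRow r) (Int.mul (Int.ofNat unit) (pkTgt c.1)) = pk 256 225 f := by
    rw [← f1]
    show x.pkRow r - (unit : ℤ) * pkTgt c.1 = _
    ring
  have hA := h.2
  rw [e, absSum_eq 256 (by norm_num) 225 f
    (fun k => lt_of_le_of_lt (hbd k) (by norm_num [half]))
    (lt_of_le_of_lt hsum (by norm_num))] at hA
  set X := rowVal (fun β => β.ev (fun i => (x.num i).ev s t) * x.den.ev s t ^ β.b4) r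
  have hu : (0 : ℝ) < unit := by norm_num [unit]
  have hb : |X + ((-(unit : ℤ) : ℤ) : ℝ) * ev2 c.1 s t| ≤
      ((∑ k ∈ Finset.range 225, (f k).natAbs : ℕ) : ℝ) := by
    rw [← f4, Nat.cast_sum]
    refine (Finset.abs_sum_le_sum_abs _ _).trans (Finset.sum_le_sum fun k _ => ?_)
    rw [abs_mul, Nat.cast_natAbs, Int.cast_abs]
    refine mul_le_of_le_one_right (abs_nonneg _) ?_
    rw [stMon, abs_mul, abs_pow, abs_pow]
    exact mul_le_one₀ (pow_le_one₀ (abs_nonneg s) hs) (by positivity) (pow_le_one₀ (abs_nonneg t) ht)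
  have hA' : ((∑ k ∈ Finset.range 225, (f k).natAbs : ℕ) : ℝ) ≤ ((c.2 * unit : ℕ) : ℝ) :=
    Nat.cast_le.2 hA
  push_cast at hb hA'
  rw [show X / unit - ev2 c.1 s t = (X + -(unit : ℝ) * ev2 c.1 s t) / unit by field_simp; ring,
    abs_div, abs_of_pos hu, div_le_iff₀ hu]
  linarith

end Vale.Agent.P098.Exact.Sos
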