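import Vale.Agent.P098.Exact.Sos.FastPoly
import Vale.Agent.P098.Exact.Sos.BoxPoly

/-! Comparing a polynomial with coefficient rows by one walk. -/

namespace Vale.Agent.P098.Exact.Sos

/-- Monomial of an exponent code, sixteen values per variable. -/
noncomputable def evC : ℕ → ℕ → List ℝ → ℝ
  | 0, _, _ => 1
  | n + 1, c, x => x.headD 0 ^ (c % 16) * evC n (c / 16) x.tail

/-- Code of an exponent list. -/
def enc : List ℕ → ℕ
  | [] => 0
  | e :: l => e + 16 * enc l

theorem evC_zero : ∀ (n : ℕ) (x : List ℝ), evC n 0 x = 1
  | 0, _ => rfl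
  | n + 1, x => by simp [evC, evC_zero n]

theorem evC_enc : ∀ (n : ℕ) (l : List ℕ) (x : List ℝ), l.length ≤ n → (∀ e ∈ l, e < 16) →
    evC n (enc l) x = HP.evMon l x
  | n, [], x, _, _ => by simp [enc, evC_zero, HP.evMon]
  | 0, e :: l, x, h, _ => by simp at h
  | n + 1, e :: l, x, h, he => by
    have h1 : (e + 16 * enc l) % 16 = e := by have := he e (by simp); omega
    have h2 : (e + 16 * enc l) / 16 = enc l := by have := he e (by simp); omega
    simp only [enc, evC, h1, h2, HP.evMon]
    rw [evC_enc n l _ (by simpa using h) fun q hq => he q (by simp [hq])]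

theorem enc_append : ∀ (a b : List ℕ), enc (a ++ b) = enc a + 16 ^ a.length * enc b
  | [], b => by simp [enc]
  | e :: a, b => by simp [enc, enc_append a b, pow_succ]; ring

theorem evC_incr : ∀ (i n c : ℕ) (x : List ℝ), i < n → c / 16 ^ i % 16 < 15 →
    evC n (c + 16 ^ i) x = x.getD i 0 * evC n c x
  | i, 0, c, x, h, _ => by simp at h
  | 0, n + 1, c, x, _, h => by
    simp only [pow_zero, Nat.div_one] at h
    have h1 : (c + 1) % 16 = c % 16 + 1 := by omega
    have h2 : (c + 1) / 16 = c / 16 := by omega
    simp only [evC, pow_zero, h1, h2, pow_succ]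
    cases x <;> simp <;> ring
  | i + 1, n + 1, c, x, hi, h => by
    have e : (16 : ℕ) ^ (i + 1) = 16 * 16 ^ i := pow_succ' 16 i
    rw [e, ← Nat.div_div_eq_div_mul] at h
    have h1 : (c + 16 ^ (i + 1)) % 16 = c % 16 := by rw [e, Nat.add_mul_mod_self_left]
    have h2 : (c + 16 ^ (i + 1)) / 16 = c / 16 + 16 ^ i := by
      rw [e, Nat.add_mul_div_left _ _ (by norm_num)]
    simp only [evC, h1, h2, evC_incr i n (c / 16) x.tail (by omega) h]
    cases x <;> simp <;> ring

/-- Value of coded monomials. -/
noncomputable def evL (L : List (ℤ × ℕ)) (x : List ℝ) : ℝ :=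
  (L.map fun p => (p.1 : ℝ) * evC 27 p.2 x).sum

/-- Consume the monomials of a polynomial from a list; `code` holds the exponents so far. -/
noncomputable def chk (p : HP) : ℕ → ℕ → List (ℤ × ℕ) → Option (List (ℤ × ℕ)) :=
  HP.rec (motive := fun _ => ℕ → ℕ → List (ℤ × ℕ) → Option (List (ℤ × ℕ)))
    (fun z code _ L => Bool.rec
      (List.rec (motive := fun _ => Option (List (ℤ × ℕ))) none
        (fun e L' _ => Prod.rec (motive := fun _ => Option (List (ℤ × ℕ)))
          (fun c d => Bool.rec none (some L')
            (Nat.beq d code && Nat.beq (Int.natAbs (Int.sub c z)) 0)) e) L)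
      (some L) (Nat.beq (Int.natAbs z) 0))
    (fun _ _ ihh iht code i L =>
      Option.rec (motive := fun _ => Option (List (ℤ × ℕ))) none
        (fun L' => Bool.rec none (iht (Nat.add code (Nat.pow 16 i)) i L')
          (Nat.blt i 27 && Nat.blt (Nat.mod (Nat.div code (Nat.pow 16 i)) 16) 15))
        (ihh code (Nat.add i 1) L)) p

theorem chk_spec : ∀ (p : HP) (code i : ℕ) (L L' : List (ℤ × ℕ)) (x : List ℝ),
    chk p code i L = some L' → evL L x = evC 27 code x * p.ev (x.drop i) + evL L' x
  | .c z, code, i, L, L', x, h => by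
    change (Bool.rec _ (some L) (Nat.beq (Int.natAbs z) 0) : Option (List (ℤ × ℕ))) = some L' at h
    cases e : Nat.beq (Int.natAbs z) 0
    · rw [e] at h
      cases L with
      | nil => simp at h
      | cons q L₀ =>
        obtain ⟨c, d⟩ := q
        cases e2 : (Nat.beq d code && Nat.beq (Int.natAbs (Int.sub c z)) 0)
        · simp [e2] at h
        · simp only [e2] at h
          simp only [Bool.and_eq_true] at e2
          have hd : d = code := Nat.eq_of_beq_eq_true e2.1
          have hc : c = z := sub_eq_zero.1 (Int.natAbs_eq_zero.1 (Nat.eq_of_beq_eq_true e2.2))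
          cases h
          simp [evL, HP.ev, hd, hc]
          ring
    · rw [e] at h
      cases h
      simp [HP.ev, Int.natAbs_eq_zero.1 (Nat.eq_of_beq_eq_true e)]
  | .n h t, code, i, L, L', x, hh => by
    change (Option.rec (motive := fun _ => Option (List (ℤ × ℕ))) none
      (fun L1 => Bool.rec none (chk t (code + 16 ^ i) i L1)
        (Nat.blt i 27 && Nat.blt (code / 16 ^ i % 16) 15))
      (chk h code (i + 1) L)) = some L' at hh
    cases e : chk h code (i + 1) L with
    | none => simp [e] at hh
    | some L1 =>
      cases e2 : (Nat.blt i 27 && Nat.blt (code / 16 ^ i % 16) 15)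
      · simp [e, e2] at hh
      · simp only [e, e2] at hh
        simp only [Bool.and_eq_true, Nat.blt_eq] at e2
        rw [chk_spec h code (i + 1) L L1 x e, chk_spec t (code + 16 ^ i) i L1 L' x hh,
          evC_incr i 27 code x e2.1 e2.2]
        simp only [HP.ev, List.tail_drop, List.headD_eq_head?_getD, List.head?_drop,
          List.getD_eq_getElem?_getD]
        ring

/-- Exponents of `z` and `v` of a monomial. -/
def zvExp (G : Gam) : List ℕ :=
  (List.range 18).map (fun i => (if i = G.a then 1 else 0) + (if i = G.b then 1 else 0)) ++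
    [G.g.getD 0 0, G.g.getD 1 0, G.g.getD 2 0, G.g.getD 3 0, G.g.getD 4 0]

/-- Exponents of the eigenvalues. -/
def lExp (β : Beta) : List ℕ := [β.b0, β.b1, β.b2, β.b3]

/-- Code of one row. -/
noncomputable def rowCodes (gc : ℕ) (r : Row) (acc : List (ℤ × ℕ)) : List (ℤ × ℕ) :=
  List.rec (motive := fun _ => List (ℤ × ℕ)) acc
    (fun p _ ih => Prod.rec (motive := fun _ => List (ℤ × ℕ))
      (fun β c => (c, Nat.add gc (Nat.mul (16 ^ 23) (enc (lExp β)))) :: ih) p) r

/-- Coded monomials of rows. -/
noncomputable def allCodes (gl : List Gam) : List Row → List (ℤ × ℕ) :=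
  List.rec (motive := fun _ => List Row → List (ℤ × ℕ)) (fun _ => [])
    (fun G _ ih R => List.rec (motive := fun _ => List (ℤ × ℕ)) []
      (fun r R' _ => rowCodes (enc (zvExp G)) r (ih R')) R) gl

/-- Exponents are small. -/
def smallExp (gl : List Gam) (R : List Row) : Bool :=
  gl.all (fun G => (zvExp G).all fun e => decide (e < 16)) &&
    R.all fun r => r.all fun p => (lExp p.1).all fun e => decide (e < 16)

/-- A polynomial has the given rows. -/
noncomputable def pieceOK (p : HP) (gl : List Gam) (R : List Row) : Bool :=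
  smallExp gl R && decide (R.length = gl.length) &&
    Option.rec (motive := fun _ => Bool) false (fun L => L.isEmpty) (chk p 0 0 (allCodes gl R))

/-- Remove a sparse row from a row. -/
def subRow : Row → Row → Option Row
  | r, [] => some r
  | [], _ :: _ => none
  | (β, c) :: r, (γ, d) :: s =>
    if β.b0 == γ.b0 && β.b1 == γ.b1 && β.b2 == γ.b2 && β.b3 == γ.b3 && β.b4 == γ.b4 then
      (subRow r s).map ((β, c - d) :: ·)
    else (subRow r ((γ, d) :: s)).map ((β, c) :: ·)

theorem subRow_spec (f : Beta → ℝ) : ∀ (r s q : Row), subRow r s = some q →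
    rowVal f r = rowVal f q + rowVal f s
  | r, [], q, h => by
    cases r <;> · simp only [subRow, Option.some.injEq] at h; subst h; simp [rowVal]
  | [], _ :: _, q, h => by simp [subRow] at h
  | (β, c) :: r, (γ, d) :: s, q, h => by
    rw [subRow] at h
    split at h
    · rename_i he
      obtain ⟨q', h1, rfl⟩ := Option.map_eq_some_iff.1 h
      simp only [Bool.and_eq_true, beq_iff_eq] at he
      obtain ⟨⟨⟨⟨e0, e1⟩, e2⟩, e3⟩, e4⟩ := he
      have e : γ = β := by cases γ; cases β; simp_all
      simp only [rowVal, subRow_spec f r s q' h1, e]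
      push_cast
      ring
    · obtain ⟨q', h1, rfl⟩ := Option.map_eq_some_iff.1 h
      simp only [rowVal, subRow_spec f r _ q' h1]
      ring

/-- Row-wise removal. -/
def subRows : List Row → List Row → Option (List Row)
  | [], [] => some []
  | r :: R, s :: S =>
    match subRow r s, subRows R S with
    | some q, some Q => some (q :: Q)
    | _, _ => none
  | _, _ => none

theorem subRows_spec (z v : ℕ → ℝ) (f : Beta → ℝ) : ∀ (Gs : List Gam) (R S Q : List Row),
    subRows R S = some Q →
    gsumR z v Gs (R.map (rowVal f)) = gsumR z v Gs (Q.map (rowVal f)) + gsumR z v Gs (S.map (rowVal f))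
  | [], R, S, Q, _ => by simp [gsumR]
  | G :: Gs, [], [], Q, h => by
    simp only [subRows, Option.some.injEq] at h; subst h; simp [gsumR]
  | G :: Gs, r :: R, s :: S, Q, h => by
    rw [subRows] at h
    split at h
    · rename_i q Q' h1 h2
      simp only [Option.some.injEq] at h
      subst h
      simp only [List.map_cons, gsumR, subRow_spec f r s q h1, subRows_spec z v f Gs R S Q' h2]
      ring
    · simp at h
  | _ :: _, [], _ :: _, Q, h => by simp [subRows] at h
  | _ :: _, _ :: _, [], Q, h => by simp [subRows] at h

/-- The rows are the sum of the listed parts. -/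
def sumOK : List Row → List (List Row) → Bool
  | R, [] => R.all fun r => r.all fun p => decide (p.2 = 0)
  | R, S :: T =>
    match subRows R S with
    | some Q => sumOK Q T
    | none => false

theorem rowVal_zero (f : Beta → ℝ) : ∀ r : Row, r.all (fun p => decide (p.2 = 0)) = true →
    rowVal f r = 0
  | [], _ => rfl
  | p :: r, h => by
    simp only [List.all_cons, Bool.and_eq_true, decide_eq_true_eq] at h
    simp [rowVal, rowVal_zero f r h.2, h.1]

theorem sumOK_spec (z v : ℕ → ℝ) (f : Beta → ℝ) (Gs : List Gam) : ∀ (R : List Row)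
    (T : List (List Row)), sumOK R T = true →
    gsumR z v Gs (R.map (rowVal f)) = (T.map fun S => gsumR z v Gs (S.map (rowVal f))).sum
  | R, [], h => by
    have hz : ∀ (Gs : List Gam) (R : List Row),
        R.all (fun r => r.all fun p => decide (p.2 = 0)) = true →
        gsumR z v Gs (R.map (rowVal f)) = 0 := by
      intro Gs
      induction Gs with
      | nil => simp [gsumR]
      | cons G Gs ih =>
        intro R hR
        cases R with
        | nil => simp [gsumR]
        | cons r R =>
          simp only [List.all_cons, Bool.and_eq_true] at hR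
          simp [gsumR, rowVal_zero f r hR.1, ih R hR.2]
    simpa [sumOK] using hz Gs R h
  | R, S :: T, h => by
    rw [sumOK] at h
    split at h
    · rename_i Q h1
      rw [subRows_spec z v f Gs R S Q h1, sumOK_spec z v f Gs Q T h]
      simp [add_comm]
    · simp at h

end Vale.Agent.P098.Exact.Sos
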