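import Vale.Agent.P098.Exact.Sos.BoxCheck
import Vale.Agent.P098.Exact.Sos.Walk
import Vale.Agent.P098.Exact.Sos.RealForm
import Vale.Agent.P098.Exact.Chart

/-! From checked boxes to the interior inequality. -/

namespace Vale.Agent.P098.Exact.Sos

theorem evMon_append : ∀ (a b : List ℕ) (x : List ℝ),
    HP.evMon (a ++ b) x = HP.evMon a x * HP.evMon b (x.drop a.length)
  | [], b, x => by simp [HP.evMon]
  | e :: a, b, x => by
    simp only [List.cons_append, HP.evMon, evMon_append a b x.tail, List.length_cons,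
      List.drop_tail]
    ring

theorem evMon_map_range (f : ℕ → ℕ) : ∀ (n : ℕ) (x : List ℝ),
    HP.evMon ((List.range n).map f) x = ∏ i ∈ Finset.range n, x.getD i 0 ^ f i
  | 0, x => by simp [HP.evMon]
  | n + 1, x => by
    rw [List.range_succ, List.map_append, evMon_append, evMon_map_range f n, Finset.prod_range_succ]
    simp [HP.evMon, List.headD_eq_head?_getD, List.getD_eq_getElem?_getD]

/-- Coordinates of the cubic part. -/
noncomputable def zOf (x : List ℝ) (n : ℕ) : ℝ := x.getD n 0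

/-- Coordinates of the gradient. -/
noncomputable def vOf (x : List ℝ) (n : ℕ) : ℝ := x.getD (18 + n) 0

/-- Eigenvalues. -/
noncomputable def lOf (x : List ℝ) (n : ℕ) : ℝ := x.getD (23 + n) 0

theorem evMon_expo (G : Gam) (β : Beta) (x : List ℝ) (ha : G.a < 18) (hb : G.b < 18) :
    HP.evMon (expo G β) x = G.ev (zOf x) (vOf x) * β.ev (lOf x) := by
  have hc : ∀ (e : ℕ) (l : List ℕ) (o : ℕ),
      HP.evMon (e :: l) (x.drop o) = x.getD o 0 ^ e * HP.evMon l (x.drop (o + 1)) := fun e l o => by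
    simp [HP.evMon, List.headD_eq_head?_getD, List.getD_eq_getElem?_getD]
  rw [expo, evMon_append, evMon_map_range]
  simp only [pow_add, Finset.prod_mul_distrib, pow_ite, pow_one, pow_zero,
    Finset.prod_ite_eq', Finset.mem_range, ha, hb, if_true, List.length_map, List.length_range,
    hc, Gam.ev, Beta.ev, zOf, vOf, lOf]
  simp only [HP.evMon, Nat.reduceAdd]
  ring

theorem expo_eq (G : Gam) (β : Beta) : expo G β = zvExp G ++ lExp β := by
  simp [expo, zvExp, lExp]

theorem evC_code (G : Gam) (β : Beta) (x : List ℝ) (ha : G.a < 18) (hb : G.b < 18)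
    (hG : (zvExp G).all (fun e => decide (e < 16)) = true)
    (hβ : (lExp β).all (fun e => decide (e < 16)) = true) :
    evC 27 (enc (zvExp G) + 16 ^ 23 * enc (lExp β)) x = G.ev (zOf x) (vOf x) * β.ev (lOf x) := by
  have hl : (zvExp G).length = 23 := by simp [zvExp]
  rw [← hl, ← enc_append, ← expo_eq, evC_enc 27 (expo G β) x (by simp [expo]) ?_,
    evMon_expo G β x ha hb]
  intro e he
  rw [expo_eq, List.mem_append] at he
  simp only [List.all_eq_true, decide_eq_true_eq] at hG hβ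
  exact he.elim (hG e) (hβ e)

theorem evL_rows (G : Gam) (ha : G.a < 18) (hb : G.b < 18)
    (hG : (zvExp G).all (fun e => decide (e < 16)) = true) (x : List ℝ) (acc : List (ℤ × ℕ)) :
    ∀ r : Row, (r.all fun p => (lExp p.1).all fun e => decide (e < 16)) = true →
    evL (rowCodes (enc (zvExp G)) r acc) x =
      rowVal (fun β => β.ev (lOf x)) r * G.ev (zOf x) (vOf x) + evL acc x
  | [], _ => by simp [rowCodes, rowVal]
  | (β, c) :: r, h => by
    simp only [List.all_cons, Bool.and_eq_true] at h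
    rw [show rowCodes (enc (zvExp G)) ((β, c) :: r) acc =
      (c, enc (zvExp G) + 16 ^ 23 * enc (lExp β)) :: rowCodes (enc (zvExp G)) r acc from rfl]
    have ih := evL_rows G ha hb hG x acc r h.2
    simp only [evL, List.map_cons, List.sum_cons, rowVal] at ih ⊢
    rw [ih, evC_code G β x ha hb hG h.1]
    ring

theorem evL_all (x : List ℝ) : ∀ (Gs : List Gam) (R : List Row),
    (∀ G ∈ Gs, G.a < 18 ∧ G.b < 18) → R.length = Gs.length → smallExp Gs R = true →
    evL (allCodes Gs R) x =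
      gsumR (zOf x) (vOf x) Gs (R.map fun r => rowVal (fun β => β.ev (lOf x)) r)
  | [], R, _, _, _ => by simp [allCodes, gsumR, evL]
  | G :: Gs, [], _, hl, _ => by simp at hl
  | G :: Gs, r :: R, h, hl, hs => by
    have hG := h G (by simp)
    simp only [smallExp, List.all_cons, Bool.and_eq_true] at hs
    rw [show allCodes (G :: Gs) (r :: R) = rowCodes (enc (zvExp G)) r (allCodes Gs R) from rfl,
      evL_rows G hG.1 hG.2 hs.1.1 x _ r hs.2.1,
      evL_all x Gs R (fun H hH => h H (by simp [hH])) (by simpa using hl)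
        (by simp only [smallExp, Bool.and_eq_true]; exact ⟨hs.1.2, hs.2.2⟩)]
    simp [gsumR]

theorem piece_spec (p : HP) (Gs : List Gam) (R : List Row) (hr : ∀ G ∈ Gs, G.a < 18 ∧ G.b < 18)
    (h : pieceOK p Gs R = true) (x : List ℝ) :
    gsumR (zOf x) (vOf x) Gs (R.map fun r => rowVal (fun β => β.ev (lOf x)) r) = p.ev x := by
  simp only [pieceOK, Bool.and_eq_true, decide_eq_true_eq] at h
  rw [← evL_all x Gs R hr h.1.2 h.1.1]
  cases e : chk p 0 0 (allCodes Gs R) with
  | none => simp [e] at h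
  | some L =>
    have hL : L = [] := by simpa [e] using h.2
    rw [chk_spec p 0 0 _ L x e, evC_zero, hL]
    simp [evL]

/-- The layout represents the interior form, through six parts. -/
structure Layout.Faithful (Y : Layout) where
  /-- rows of the five directions -/
  dirs : Fin 5 → List Row
  /-- rows of the Laplacian part -/
  lap : List Row
  /-- directions -/
  dirs_ok : ∀ k, pieceOK (pieceG fastOps HP.var k) Y.gl (dirs k) = true
  /-- Laplacian part -/
  lap_ok : pieceOK (lapG fastOps HP.var) Y.gl lap = true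
  /-- total -/
  total : sumOK Y.rows [dirs 0, dirs 1, dirs 2, dirs 3, dirs 4, lap] = true

/-- Every point of the box makes the form positive. -/
def Layout.Good (Y : Layout) (x : Box) : Prop :=
  0 < x.r ∧ ∀ (z v : ℕ → ℝ), v 0 ^ 2 + v 1 ^ 2 + v 2 ^ 2 + v 3 ^ 2 + v 4 ^ 2 ≤ 1 → 0 ≤ v 4 →
    0 ≤ z 16 * z 17 → ∀ s t : ℝ, |s| ≤ 1 → |t| ≤ 1 →
    1000 * z 17 ^ 2 * unit ≤ 288 * gsumR z v Y.gl (Y.vals x s t)

theorem rowVal_scale (l m : ℕ → ℝ) (d : ℝ) (hm : ∀ i, i < 4 → m i = d * l i) :
    ∀ r : Row, r.all (fun p => decide (p.1.b0 + p.1.b1 + p.1.b2 + p.1.b3 + p.1.b4 = 7)) = true →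
      rowVal (fun β => β.ev m * d ^ β.b4) r = d ^ 7 * rowVal (fun β => β.ev l) r
  | [], _ => by simp [rowVal]
  | (β, c) :: r, h => by
    simp only [List.all_cons, Bool.and_eq_true, decide_eq_true_eq] at h
    rw [rowVal, rowVal, rowVal_scale l m d hm r h.2]
    dsimp only
    simp only [Beta.ev, hm 0 (by norm_num), hm 1 (by norm_num), hm 2 (by norm_num),
      hm 3 (by norm_num), mul_pow]
    rw [show d ^ 7 = d ^ (β.b0 + β.b1 + β.b2 + β.b3 + β.b4) by rw [h.1]]
    simp only [pow_add]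
    ring

/-- The checks of one box give positivity there. -/
theorem good_of_checks {Y : Layout} (hY : Y.Ok) {x : Box} (hr : 0 < x.r) {Ns : List (List ℕ)}
    {E el : List ℕ} (hm : Y.modelOK x Ns E = true) (hl : Y.loadOK Ns E el = true)
    {C : List (List (List ℕ))} (hC : ∀ i, i < 5 → Y.certsOK Ns el i (C.getD i []) = true) :
    Y.Good x :=
  ⟨hr, fun z v h1 h2 h3 _ _ hs ht => box_sound Y hY x Ns E el hm hl C hC z v h1 h2 h3 hs ht⟩

/-- Boxes outside the fundamental region. -/
def Box.out (x : Box) : Bool :=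
  decide (x.A + x.r < 0) || decide (x.A + x.r < max (x.B - x.r) (-x.B - x.r)) ||
    decide (1048576 < max (x.A - x.r) 0 ^ 2 + max (max (x.B - x.r) (-x.B - x.r)) 0 ^ 2 +
      2048 * max (x.A - x.r) 0)

/-- Same box. -/
def Box.same (x y : Box) : Bool := decide (x.A = y.A) && decide (x.B = y.B) && decide (x.r = y.r)

/-- Recursive cover check. -/
def covers (boxes : List Box) : ℕ → Box → Bool
  | 0, x => x.out || boxes.any (Box.same x)
  | k + 1, x => x.out || boxes.any (Box.same x) ||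
    (decide (x.r = 2 * (x.r / 2)) &&
      covers boxes k ⟨x.A - x.r / 2, x.B - x.r / 2, x.r / 2⟩ &&
      covers boxes k ⟨x.A - x.r / 2, x.B + x.r / 2, x.r / 2⟩ &&
      covers boxes k ⟨x.A + x.r / 2, x.B - x.r / 2, x.r / 2⟩ &&
      covers boxes k ⟨x.A + x.r / 2, x.B + x.r / 2, x.r / 2⟩)

theorem covers_sound (boxes : List Box) : ∀ (k : ℕ) (x : Box), covers boxes k x = true →
    ∀ p q : ℝ, 0 ≤ p → |q| ≤ p → p ^ 2 + q ^ 2 + 2 * p ≤ 1 →
    |1024 * p - x.A| ≤ x.r → |1024 * q - x.B| ≤ x.r →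
    ∃ y ∈ boxes, |1024 * p - y.A| ≤ y.r ∧ |1024 * q - y.B| ≤ y.r := by
  have base : ∀ x : Box, (x.out || boxes.any (Box.same x)) = true →
      ∀ p q : ℝ, 0 ≤ p → |q| ≤ p → p ^ 2 + q ^ 2 + 2 * p ≤ 1 →
      |1024 * p - x.A| ≤ x.r → |1024 * q - x.B| ≤ x.r →
      ∃ y ∈ boxes, |1024 * p - y.A| ≤ y.r ∧ |1024 * q - y.B| ≤ y.r := by
    intro x h p q hp hq hpq hA hB
    rw [Bool.or_eq_true] at h
    rcases h with h | h
    · exfalso
      simp only [Box.out, Bool.or_eq_true, decide_eq_true_eq] at h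
      obtain ⟨a1, a2⟩ := abs_le.1 hA
      obtain ⟨b1, b2⟩ := abs_le.1 hB
      obtain ⟨q1, q2⟩ := abs_le.1 hq
      rcases h with (h | h) | h
      · have : ((x.A + x.r : ℤ) : ℝ) < 0 := by exact_mod_cast h
        push_cast at this
        linarith
      · have : ((x.A + x.r : ℤ) : ℝ) < ((max (x.B - x.r) (-x.B - x.r) : ℤ) : ℝ) := by exact_mod_cast h
        push_cast at this
        rcases max_choice ((x.B : ℝ) - x.r) (-x.B - x.r) with e | e <;> rw [e] at this <;> linarith
      · have h' : ((1048576 : ℤ) : ℝ) < ((max (x.A - x.r) 0 ^ 2 +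
            max (max (x.B - x.r) (-x.B - x.r)) 0 ^ 2 + 2048 * max (x.A - x.r) 0 : ℤ) : ℝ) := by
          exact_mod_cast h
        push_cast at h'
        have e1 : max ((x.A : ℝ) - x.r) 0 ≤ 1024 * p := max_le (by linarith) (by linarith)
        have e1' : 0 ≤ max ((x.A : ℝ) - x.r) 0 := le_max_right _ _
        have e2 : max (max ((x.B : ℝ) - x.r) (-x.B - x.r)) 0 ≤ 1024 * |q| :=
          max_le (max_le (by linarith [le_abs_self q]) (by linarith [neg_le_abs q]))
            (by positivity)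
        have e2' : 0 ≤ max (max ((x.B : ℝ) - x.r) (-x.B - x.r)) 0 := le_max_right _ _
        have f1 := pow_le_pow_left₀ e1' e1 2
        have f2 := pow_le_pow_left₀ e2' e2 2
        rw [mul_pow, sq_abs] at f2
        nlinarith
    · rw [List.any_eq_true] at h
      obtain ⟨y, hy, hxy⟩ := h
      simp only [Box.same, Bool.and_eq_true, decide_eq_true_eq] at hxy
      exact ⟨y, hy, hxy.1.1 ▸ hxy.2 ▸ hA, hxy.1.2 ▸ hxy.2 ▸ hB⟩
  intro k
  induction k with
  | zero => exact fun x h => base x h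
  | succ k ih =>
    intro x h p q hp hq hpq hA hB
    unfold covers at h
    rw [Bool.or_eq_true] at h
    rcases h with h | h
    · exact base x h p q hp hq hpq hA hB
    simp only [Bool.and_eq_true, decide_eq_true_eq] at h
    obtain ⟨⟨⟨⟨hr, h1⟩, h2⟩, h3⟩, h4⟩ := h
    have hr' : (x.r : ℝ) = 2 * ((x.r / 2 : ℤ) : ℝ) := by exact_mod_cast hr
    obtain ⟨a1, a2⟩ := abs_le.1 hA
    obtain ⟨b1, b2⟩ := abs_le.1 hB
    rcases le_total (1024 * p) (x.A : ℝ) with cp | cp <;>
      rcases le_total (1024 * q) (x.B : ℝ) with cq | cq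
    · exact ih _ h1 p q hp hq hpq (by push_cast; rw [abs_le]; constructor <;> linarith)
        (by push_cast; rw [abs_le]; constructor <;> linarith)
    · exact ih _ h2 p q hp hq hpq (by push_cast; rw [abs_le]; constructor <;> linarith)
        (by push_cast; rw [abs_le]; constructor <;> linarith)
    · exact ih _ h3 p q hp hq hpq (by push_cast; rw [abs_le]; constructor <;> linarith)
        (by push_cast; rw [abs_le]; constructor <;> linarith)
    · exact ih _ h4 p q hp hq hpq (by push_cast; rw [abs_le]; constructor <;> linarith)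
        (by push_cast; rw [abs_le]; constructor <;> linarith)

/-- The explicit margin. -/
noncomputable def delta5 : ℝ := 1 / 10 ^ 17

theorem delta5_pos : 0 < delta5 := by norm_num [delta5]

/-- **The interior inequality from a checked layout and cover.** -/
theorem interior_of_boxes (Y : Layout) (hok : Y.Ok) (hf : Y.Faithful)
    (boxes : List Box) (hc : covers boxes 5 ⟨224, 0, 448⟩ = true) (hg : ∀ x ∈ boxes, Y.Good x)
    (l v : Fin 5 → ℝ) (τ : Fin 5 → Fin 5 → Fin 5 → ℝ) (a : ℝ)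
    (hA : Admissible (n := 4) l v τ) (ha : 0 ≤ a) :
    delta5 ≤ Qval (n := 4) D5.al D5.table l v τ a 1 := by
  refine Qval_of_chart D5.al D5.table delta5 ?_ l v τ a hA ha
  intro p q v τ a hp hq hpq hA ha
  have hp1 : p ≤ 1 / 2 := by nlinarith [sq_nonneg q]
  obtain ⟨q1, q2⟩ := abs_le.1 hq
  obtain ⟨x, hx, hxA, hxB⟩ := covers_sound boxes 5 _ hc p q hp hq hpq
    (by push_cast; rw [abs_le]; constructor <;> nlinarith)
    (by push_cast; rw [abs_le]; constructor <;> nlinarith)
  obtain ⟨hr, hgood⟩ := hg x hx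
  have hr0 : (0 : ℝ) < x.r := Int.cast_pos.2 hr
  set s := (1024 * p - x.A) / x.r with hs
  set t := (1024 * q - x.B) / x.r with ht
  have hs1 : |s| ≤ 1 := by rw [hs, abs_div, abs_of_pos hr0, div_le_one hr0]; exact hxA
  have ht1 : |t| ≤ 1 := by rw [ht, abs_div, abs_of_pos hr0, div_le_one hr0]; exact hxB
  have es : (x.r : ℝ) * s = 1024 * p - x.A := by rw [hs]; field_simp
  have et : (x.r : ℝ) * t = 1024 * q - x.B := by rw [ht]; field_simp
  set L := chart p q with hL
  set X := xvar L v τ a 1 with hX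
  have hz : zOf X 16 = a ∧ zOf X 17 = 1 := ⟨by simp [hX, zOf, xvar], by simp [hX, zOf, xvar]⟩
  have hv : vOf X 0 = v 0 ∧ vOf X 1 = v 1 ∧ vOf X 2 = v 2 ∧ vOf X 3 = v 3 ∧ vOf X 4 = v 4 :=
    ⟨by simp [hX, vOf, xvar], by simp [hX, vOf, xvar], by simp [hX, vOf, xvar],
      by simp [hX, vOf, xvar], by simp [hX, vOf, xvar]⟩
  have hd : x.den.ev s t = 2097152 * (1 + p ^ 2 + q ^ 2) := by
    simp only [Quad.ev, Box.den]
    push_cast
    have e1 : (x.r : ℝ) ^ 2 * s ^ 2 = (1024 * p - x.A) ^ 2 := by rw [← es]; ring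
    have e2 : (x.r : ℝ) ^ 2 * t ^ 2 = (1024 * q - x.B) ^ 2 := by rw [← et]; ring
    linear_combination 4 * (x.A : ℝ) * es + 4 * (x.B : ℝ) * et + 2 * e1 + 2 * e2
  have hn : (0 : ℝ) < 1 + p ^ 2 + q ^ 2 := by positivity
  have hnum : ∀ i, i < 4 → (x.num i).ev s t = x.den.ev s t * lOf X i := by
    intro i hi
    have e1 : (x.r : ℝ) ^ 2 * s ^ 2 = (1024 * p - x.A) ^ 2 := by rw [← es]; ring
    have e2 : (x.r : ℝ) ^ 2 * t ^ 2 = (1024 * q - x.B) ^ 2 := by rw [← et]; ring
    have key : ∀ e f g : ℤ, (x.quad e f g).ev s t = 1048576 *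
        ((e : ℝ) * (1 - p ^ 2 - q ^ 2) + 2 * f * p + 2 * g * q) := by
      intro e f g
      simp only [Quad.ev, Box.quad]
      push_cast
      linear_combination (2048 * (f : ℝ) - 2 * e * x.A) * es + (2048 * (g : ℝ) - 2 * e * x.B) * et
        - (e : ℝ) * e1 - (e : ℝ) * e2
    rw [hd]
    interval_cases i <;> simp only [Box.num, key, lOf, hX, xvar, hL, chart] <;> simp <;>
      field_simp <;> ring
  have hl := hok.lists
  simp only [Layout.listsOK, Bool.and_eq_true, decide_eq_true_eq, List.all_eq_true] at hl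
  obtain ⟨⟨⟨_, hrange⟩, _⟩, hrok⟩ := hl
  have h7 : ∀ r ∈ Y.rows,
      r.all (fun p => decide (p.1.b0 + p.1.b1 + p.1.b2 + p.1.b3 + p.1.b4 = 7)) = true := by
    intro r hr
    have := hrok r hr
    simp only [rowOK', Bool.and_eq_true] at this
    exact this.1
  have hQ : gsumR (zOf X) (vOf X) Y.gl (Y.rows.map fun r => rowVal
      (fun β => β.ev (lOf X)) r) = 640000 * Qval (n := 4) D5.al D5.table L v τ a 1 := by
    rw [show (fun r => rowVal (fun β => β.ev (lOf X)) r) = rowVal (fun β => β.ev (lOf X)) from rfl,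
      sumOK_spec (zOf X) (vOf X) (fun β => β.ev (lOf X)) Y.gl Y.rows _ hf.total]
    simp only [List.map_cons, List.map_nil, List.sum_cons, List.sum_nil,
      piece_spec _ Y.gl _ hrange (hf.dirs_ok _) X, piece_spec _ Y.gl _ hrange hf.lap_ok X,
      ev_piece, ev_lap]
    rw [← QG_real a 1 hA, QG_eq, sum5_real, Fin.sum_univ_five, hX]
    simp only [realOps]
    ring
  have hvals : gsumR (zOf X) (vOf X) Y.gl (Y.vals x s t) =
      x.den.ev s t ^ 7 * (640000 * Qval (n := 4) D5.al D5.table L v τ a 1) := by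
    rw [← hQ, Layout.vals,
      List.map_congr_left fun r hr => rowVal_scale (lOf X) _ _ hnum r (h7 r hr)]
    exact scale_gsumR _ _ _ Y.gl Y.rows _
  have hb := hgood (zOf X) (vOf X) (by
      obtain ⟨h0, h1, h2, h3, h4⟩ := hv
      rw [h0, h1, h2, h3, h4]
      have h := hA.v_sq
      rw [Fin.sum_univ_five] at h
      exact h)
    (hv.2.2.2.2 ▸ hA.v_last) (by rw [hz.1, hz.2, mul_one]; exact ha) s t hs1 ht1
  rw [hvals, hz.2] at hb
  simp only [one_pow, mul_one, unit] at hb
  push_cast at hb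
  set Q := Qval (n := 4) D5.al D5.table L v τ a 1
  have hD : x.den.ev s t ≤ 2 ^ 23 := by rw [hd]; nlinarith
  have hD0 : 0 < x.den.ev s t := by rw [hd]; positivity
  have hQ0 : 0 ≤ Q := by
    by_contra hneg
    nlinarith [mul_neg_of_pos_of_neg (pow_pos hD0 7) (lt_of_not_ge hneg)]
  have h7 : x.den.ev s t ^ 7 * Q ≤ (2 ^ 23 : ℝ) ^ 7 * Q :=
    mul_le_mul_of_nonneg_right (pow_le_pow_left₀ hD0.le hD 7) hQ0
  unfold delta5
  norm_num at h7 hb ⊢
  linarith
where
  scale_gsumR (z v : ℕ → ℝ) (k : ℝ) : ∀ (Gs : List Gam) (R : List Row) (f : Row → ℝ),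
      gsumR z v Gs (R.map fun r => k * f r) = k * gsumR z v Gs (R.map f)
    | [], R, f => by simp [gsumR]
    | G :: Gs, [], f => by simp [gsumR]
    | G :: Gs, r :: R, f => by simp [gsumR, scale_gsumR z v k Gs R f]; ring

end Vale.Agent.P098.Exact.Sos
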