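import Vale.Agent.P098.Exact.Sos.BoxPoly

/-! Soundness of the check of one box. -/

namespace Vale.Agent.P098.Exact.Sos

theorem gsumR_zipWith (z v : ℕ → ℝ) : ∀ (Gs : List Gam) (X : List ℝ),
    gsumR z v Gs X = (List.zipWith (fun (G : Gam) x => x * G.ev z v) Gs X).sum
  | [], X => by simp [gsumR]
  | G :: Gs, [] => by simp [gsumR]
  | G :: Gs, x :: X => by simp [gsumR, gsumR_zipWith z v Gs X]

theorem gsumR_add (z v : ℕ → ℝ) (f g : Tgt → ℝ) : ∀ (Gs : List Gam) (cs : List Tgt),
    gsumR z v Gs (cs.map fun c => f c + g c) = gsumR z v Gs (cs.map f) + gsumR z v Gs (cs.map g)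
  | [], cs => by simp [gsumR]
  | G :: Gs, [] => by simp [gsumR]
  | G :: Gs, c :: cs => by simp [gsumR, gsumR_add z v f g Gs cs]; ring

theorem gsumR_smul (z v : ℕ → ℝ) (k : ℝ) (f : Tgt → ℝ) : ∀ (Gs : List Gam) (cs : List Tgt),
    gsumR z v Gs (cs.map fun c => k * f c) = k * gsumR z v Gs (cs.map f)
  | [], cs => by simp [gsumR]
  | G :: Gs, [] => by simp [gsumR]
  | G :: Gs, c :: cs => by simp [gsumR, gsumR_smul z v k f Gs cs]; ring

theorem gsumR_sum (z v : ℕ → ℝ) (f : ℕ → Tgt → ℝ) (Gs : List Gam) (cs : List Tgt) : ∀ n,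
    gsumR z v Gs (cs.map fun c => ∑ i ∈ Finset.range n, f i c) =
      ∑ i ∈ Finset.range n, gsumR z v Gs (cs.map (f i))
  | 0 => by simpa using gsumR_smul z v 0 (fun _ => 0) Gs cs
  | n + 1 => by
    simp only [Finset.sum_range_succ]
    rw [gsumR_add z v (fun c => ∑ i ∈ Finset.range n, f i c) (f n), gsumR_sum z v f Gs cs n]

theorem gsumR_sub (z v : ℕ → ℝ) : ∀ (Gs : List Gam) (X Y : List ℝ), X.length = Y.length →
    gsumR z v Gs X - gsumR z v Gs Y = gsumR z v Gs (List.zipWith (· - ·) X Y)
  | [], X, Y, _ => by simp [gsumR]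
  | G :: Gs, [], [], _ => by simp [gsumR]
  | G :: Gs, x :: X, y :: Y, h => by
    simp only [gsumR, List.zipWith_cons_cons]
    rw [← gsumR_sub z v Gs X Y (by simpa using h)]
    ring

/-- Everything fixed by the table: monomials, blocks, positions, coefficient rows. -/
structure Layout where
  /-- number of monomials -/
  n : ℕ
  /-- monomials in groups of sixteen -/
  gam : List (List Gam)
  /-- monomials -/
  gl : List Gam
  /-- blocks -/
  blocks : List Block
  /-- positions hitting each coordinate -/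
  pos : List (List ℕ × List ℕ)
  /-- coefficient rows -/
  rows : List Row

/-- Grouped and listed monomials agree. -/
def sameFrom (gam : List (List Gam)) : List Gam → ℕ → Bool
  | [], _ => true
  | G :: Gs, o => sameGam (gamAt gam o) G && sameFrom gam Gs (o + 1)

theorem sameFrom_spec (gam : List (List Gam)) : ∀ (Gs : List Gam) (o : ℕ),
    sameFrom gam Gs o = true → ∀ k, k < Gs.length →
      sameGam (gamAt gam (o + k)) (Gs.getD k ⟨0, 0, []⟩) = true
  | [], _, _, k, hk => by simp at hk
  | G :: Gs, o, h, k, hk => by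
    simp only [sameFrom, Bool.and_eq_true] at h
    cases k with
    | zero => simpa using h.1
    | succ k =>
      simpa [add_assoc, add_comm 1] using sameFrom_spec gam Gs (o + 1) h.2 k (by simpa using hk)

/-- Indexing of the Gram blocks is right. -/
def Layout.blocksOK (Y : Layout) : Bool :=
  Y.blocks.all (fun b => blockOK Y.n Y.gam b.K b.bas b.pairs && decide (b.bas.length ≤ 32)) &&
    decide ((Y.blocks.map fun b => blockWeight b.pairs).sum ≤ 2 ^ 20)

/-- The positions are right. -/
def Layout.posOK (Y : Layout) : Bool :=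
  decide (Y.pos = (List.range 18).map fun a => (posFrom true a Y.gl 0, posFrom false a Y.gl 0))

/-- The monomial list and the rows are right. -/
def Layout.listsOK (Y : Layout) : Bool :=
  decide (Y.gl.length = Y.n) && decide (Y.rows.length = Y.n) &&
    Y.gl.all (fun G => decide (G.a < 18) && decide (G.b < 18)) && sameFrom Y.gam Y.gl 0 &&
    Y.rows.all rowOK'

/-- Consistency of a layout. -/
structure Layout.Ok (Y : Layout) : Prop where
  /-- lists -/
  lists : Y.listsOK = true
  /-- blocks -/
  blks : Y.blocksOK = true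
  /-- positions -/
  poss : Y.posOK = true

/-- Targets of a box from packed coefficients and errors. -/
def tgtFrom (Ns : List (List ℕ)) : List ℕ → ℕ → List Tgt
  | [], _ => []
  | e :: L, o => (tgtGrid Ns o, e) :: tgtFrom Ns L (o + 1)

theorem tgtFrom_eq (Ns : List (List ℕ)) : ∀ (L : List ℕ) (o : ℕ),
    tgtFrom Ns L o = (List.range L.length).map fun k => (tgtGrid Ns (o + k), L.getD k 0)
  | [], o => by simp [tgtFrom]
  | e :: L, o => by
    rw [List.length_cons, List.range_succ_eq_map, List.map_cons, List.map_map, tgtFrom,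
      tgtFrom_eq Ns L (o + 1)]
    simp [Function.comp_def, add_assoc, add_comm 1]

/-- All targets of a box. -/
noncomputable def boxTargets (x : Box) (Ns : List (List ℕ)) : List Row → List ℕ → ℕ → Bool
  | [], [], _ => true
  | r :: R, e :: L, o => tgtOK x r Ns o e && boxTargets x Ns R L (o + 1)
  | _, _, _ => false

/-- Packed targets with their signs. -/
def Layout.signed (Y : Layout) (Ns : List (List ℕ)) : List (List ℤ) :=
  Ns.map fun r => r.map (svalF 96 Y.n)

/-- Packed coefficients are in range and the models are right. -/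
noncomputable def Layout.modelOK (Y : Layout) (x : Box) (Ns : List (List ℕ)) (E : List ℕ) : Bool :=
  x.small && decide (Ns.length ≤ 5) && Ns.all (fun r => decide (r.length ≤ 5)) && Ns.all (fun r => r.all fun N => decide (N < base 96 ^ Y.n)) &&
    boxTargets x Ns Y.rows E 0

/-- The stored loads bound the errors. -/
def Layout.loadOK (Y : Layout) (Ns : List (List ℕ)) (E el : List ℕ) : Bool :=
  (List.range 18).all fun a => decide (eload a Y.gl (tgtFrom Ns E 0) ≤ el.getD a 0)

/-- Checked certificates of a row of controls. -/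
noncomputable def Layout.certsOK (Y : Layout) (Ns : List (List ℕ)) (el : List ℕ) (i : ℕ)
    (L : List (List ℕ)) : Bool :=
  (List.range 5).all fun j => certOK Y.n Y.blocks Y.pos (Y.signed Ns) el i j (L.getD j [])

/-- Values of the coefficient rows at a point of a box. -/
noncomputable def Layout.vals (Y : Layout) (x : Box) (s t : ℝ) : List ℝ :=
  Y.rows.map fun r => rowVal (fun β => β.ev (fun i => (x.num i).ev s t) * x.den.ev s t ^ β.b4) r

theorem boxTargets_spec {x : Box} (hx : x.small = true) {Ns : List (List ℕ)}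
    (hd : ∀ m, fits (tgtGrid Ns m) = true) {s t : ℝ} (hs : |s| ≤ 1) (ht : |t| ≤ 1) :
    ∀ (R : List Row) (L : List ℕ) (o : ℕ), boxTargets x Ns R L o = true →
    (∀ r ∈ R, rowOK' r = true) →
    R.length = (tgtFrom Ns L o).length ∧ (∀ c ∈ tgtFrom Ns L o, small5 c.1 = true) ∧
      ∀ k, k < R.length →
      |(R.map fun r =>
          rowVal (fun β => β.ev (fun i => (x.num i).ev s t) * x.den.ev s t ^ β.b4) r / unit).getD k 0 -
        (((tgtFrom Ns L o).map fun c => ev2 c.1 s t).getD k 0)| ≤
          ((tgtFrom Ns L o).getD k ([], 0)).2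
  | [], [], o, _, _ => by simp [tgtFrom]
  | r :: R, e :: L, o, h, hok => by
    simp only [boxTargets, Bool.and_eq_true] at h
    obtain ⟨h1, h2, h3⟩ := boxTargets_spec hx hd hs ht R L (o + 1) h.2 (fun q hq => hok q (by simp [hq]))
    have hr := hok r (by simp)
    refine ⟨by simp [tgtFrom, h1], fun d hd' => ?_, fun k hk => ?_⟩
    · rcases List.mem_cons.1 hd' with rfl | hd'
      · have h4 := h.1
        simp only [tgtOK, Bool.and_eq_true] at h4
        exact tgtGrid_small (hd o) h4.1
      · exact h2 d hd'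
    cases k with
    | zero => simpa [tgtFrom] using tgt_sound hx hr (hd o) h.1 hs ht
    | succ k => simpa [tgtFrom] using h3 k (by simpa using hk)
  | [], _ :: _, _, h, _ => by simp [boxTargets] at h
  | _ :: _, [], _, h, _ => by simp [boxTargets] at h

/-- **A checked box has a positive form.** -/
theorem box_sound (Y : Layout) (hY : Y.Ok) (x : Box) (Ns : List (List ℕ)) (E el : List ℕ)
    (hm : Y.modelOK x Ns E = true) (hl : Y.loadOK Ns E el = true) (C : List (List (List ℕ)))
    (hC : ∀ i, i < 5 → Y.certsOK Ns el i (C.getD i []) = true)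
    (z v : ℕ → ℝ) (hball : v 0 ^ 2 + v 1 ^ 2 + v 2 ^ 2 + v 3 ^ 2 + v 4 ^ 2 ≤ 1) (hw : 0 ≤ v 4)
    (hab : 0 ≤ z 16 * z 17) {s t : ℝ} (hs : |s| ≤ 1) (ht : |t| ≤ 1) :
    1000 * z 17 ^ 2 * unit ≤ 288 * gsumR z v Y.gl (Y.vals x s t) := by
  have hv : ∀ k, k < 5 → |v k| ≤ 1 := fun k hk => by
    rw [abs_le_one_iff_mul_self_le_one]
    interval_cases k <;>
      nlinarith [sq_nonneg (v 0), sq_nonneg (v 1), sq_nonneg (v 2), sq_nonneg (v 3),
        sq_nonneg (v 4)]
  obtain ⟨hlists, hblk, hpos⟩ := hY
  simp only [Layout.listsOK, Bool.and_eq_true, decide_eq_true_eq, List.all_eq_true] at hlists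
  obtain ⟨⟨⟨⟨hgl, hrows⟩, hglr⟩, hsame⟩, hrok⟩ := hlists
  simp only [Layout.blocksOK, Bool.and_eq_true, decide_eq_true_eq] at hblk
  simp only [Layout.posOK, decide_eq_true_eq] at hpos
  simp only [Layout.modelOK, Bool.and_eq_true, decide_eq_true_eq, List.all_eq_true] at hm
  obtain ⟨⟨⟨⟨hsmall, hlenN⟩, hlen5⟩, hN⟩, hT⟩ := hm
  have hd : ∀ m, fits (tgtGrid Ns m) = true := fun m => by
    simp only [fits, tgtGrid, List.length_map, List.all_map, Bool.and_eq_true, decide_eq_true_eq,
      List.all_eq_true, Function.comp]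
    exact ⟨hlenN, hlen5⟩
  simp only [Layout.loadOK, decide_eq_true_eq, List.all_eq_true, List.mem_range] at hl
  set cs := tgtFrom Ns E 0 with hcs
  obtain ⟨hlen, hfit5, hk⟩ := boxTargets_spec hsmall hd hs ht Y.rows E 0 hT hrok
  rw [← hcs] at hlen hfit5 hk
  have hfit : ∀ c ∈ cs, fits c.1 = true := fun c hc => by
    have := hfit5 c hc
    simp only [small5, Bool.and_eq_true] at this
    exact this.1
  have hEn : E.length = Y.n := by
    have : cs.length = E.length := by rw [hcs, tgtFrom_eq]; simp
    omega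
  set cf : ℕ → List (List ℤ) := fun m => if m < Y.n then tgtGrid Ns m else [] with hcf
  have hcs_eq : (cs.map fun c => c.1) = (List.range Y.n).map cf := by
    rw [hcs, tgtFrom_eq, List.map_map, hEn]
    refine List.map_congr_left fun k hk' => ?_
    simp only [Function.comp, hcf, Nat.zero_add, List.mem_range.1 hk', if_true]
  have hcb : ∀ m k l, |((cf m).getD k []).getD l 0| ≤ 2 ^ 70 := by
    intro m k l
    by_cases h : m < Y.n
    · refine small5_entry ?_ k l
      have hm' : (cf m) ∈ cs.map fun c => c.1 := by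
        rw [hcs_eq]; exact List.mem_map.2 ⟨m, List.mem_range.2 h, rfl⟩
      obtain ⟨c, hc, e⟩ := List.mem_map.1 hm'
      exact e ▸ hfit5 c hc
    · simp [hcf, h]
  have hP : ∀ k l, ((Y.signed Ns).getD k []).getD l 0 =
      pk 96 Y.n fun m => ((cf m).getD k []).getD l 0 := by
    intro k l
    have e : pk 96 Y.n (fun m => ((cf m).getD k []).getD l 0) =
        pk 96 Y.n (fun m => ((tgtGrid Ns m).getD k []).getD l 0) :=
      Finset.sum_congr rfl fun m hm => by simp [hcf, Finset.mem_range.1 hm]
    rw [e]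
    rcases Nat.lt_or_ge k Ns.length with hk' | hk'
    · have hk0 : (Y.signed Ns).getD k [] = (Ns[k]).map (svalF 96 Y.n) := by
        rw [List.getD_eq_getElem _ _ (by simpa [Layout.signed] using hk')]
        simp [Layout.signed]
      have hm0 : ∀ m, (tgtGrid Ns m).getD k [] = (Ns[k]).map fun N => dg 96 N m := fun m => by
        rw [List.getD_eq_getElem _ _ (by simpa [tgtGrid] using hk')]
        simp [tgtGrid]
      simp only [hk0, hm0]
      have hmem : Ns[k] ∈ Ns := List.getElem_mem hk'
      generalize Ns[k] = r at hmem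
      rcases Nat.lt_or_ge l r.length with hl' | hl'
      · rw [List.getD_eq_getElem _ _ (by simpa using hl'), List.getElem_map]
        rw [show svalF 96 Y.n r[l] = sval 96 Y.n r[l] by rw [svalF, onesF_eq 96 (by norm_num)]; rfl,
          sval_eq 96 Y.n _ (hN r hmem _ (List.getElem_mem hl'))]
        refine Finset.sum_congr rfl fun m _ => ?_
        dsimp only
        rw [List.getD_eq_getElem _ _ (by simpa using hl'), List.getElem_map, dg_eq]
      · rw [List.getD_eq_default _ _ (by simpa using hl')]
        refine (Finset.sum_eq_zero fun m _ => ?_).symm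
        dsimp only
        rw [List.getD_eq_default _ _ (by simpa using hl'), zero_mul]
    · rw [List.getD_eq_default (Y.signed Ns) _ (by simpa [Layout.signed] using hk')]
      refine Eq.trans ?_ (Finset.sum_eq_zero fun m _ => ?_).symm
      · simp
      · dsimp only
        rw [List.getD_eq_default (tgtGrid Ns m) _ (by simpa [tgtGrid] using hk')]
        simp
  set X := (Y.vals x s t).map fun r => r / (unit : ℝ) with hXdef
  have hu : (0 : ℝ) < unit := by norm_num [unit]
  have hvals : gsumR z v Y.gl (Y.vals x s t) = unit * gsumR z v Y.gl X := by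
    rw [hXdef, Layout.vals, List.map_map]
    exact vals_div z v hu Y.gl Y.rows _
  set P := ∑ a ∈ Finset.range 18, ((144 * (el.getD a 0 : ℤ) + gap a : ℤ) : ℝ) * z a ^ 2
  have hcert : ∀ i, i < 5 → ∀ j, j < 5 →
      P ≤ 2 * gsumR z v Y.gl (cs.map fun c => (ctrl i j c.1 : ℝ)) := by
    intro i hi j hj
    have h := hC i hi
    simp only [Layout.certsOK, List.all_eq_true, List.mem_range] at h
    have := certOK_sound Y.n Y.gam Y.gl hgl (fun k hk' => by
        simpa using sameFrom_spec Y.gam Y.gl 0 hsame k (hgl ▸ hk'))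
      (fun G hG => hglr G hG) Y.blocks hblk.1 hblk.2 Y.pos hpos (Y.signed Ns) cf hP hcb el i j hi hj _
      (h j hj) z v hv hball hw hab
    refine this.trans_eq ?_
    rw [show (cs.map fun c => (ctrl i j c.1 : ℝ)) =
      (cs.map fun c => c.1).map (fun c => (ctrl i j c : ℝ)) by rw [List.map_map]; rfl, hcs_eq,
      List.map_map]
    rfl
  have hsplit : 144 * gsumR z v Y.gl (cs.map fun c => ev2 c.1 s t) =
      ∑ i ∈ Finset.range 5, ∑ j ∈ Finset.range 5,
        bB s i * bB t j * gsumR z v Y.gl (cs.map fun c => (ctrl i j c.1 : ℝ)) := by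
    rw [← gsumR_smul]
    rw [List.map_congr_left fun c hc => bern2 c.1 (hfit c hc) s t, gsumR_sum]
    exact Finset.sum_congr rfl fun i _ => by
      rw [gsumR_sum]
      exact Finset.sum_congr rfl fun j _ => gsumR_smul z v _ _ Y.gl cs
  have hlow : P ≤ 2 * (144 * gsumR z v Y.gl (cs.map fun c => ev2 c.1 s t)) := by
    rw [hsplit, Finset.mul_sum]
    have hone : ∀ w : ℝ, ∑ i ∈ Finset.range 5, bB w i = 1 := fun w => by
      simpa [Finset.sum_range_succ] using bB_sum w
    calc P = ∑ i ∈ Finset.range 5, ∑ j ∈ Finset.range 5, bB s i * bB t j * P := by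
          simp only [← Finset.sum_mul, ← Finset.mul_sum, hone, mul_one, one_mul]
      _ ≤ _ := Finset.sum_le_sum fun i hi => by
          rw [Finset.mul_sum]
          exact Finset.sum_le_sum fun j hj => by
            have := mul_le_mul_of_nonneg_left
              (hcert i (Finset.mem_range.1 hi) j (Finset.mem_range.1 hj))
              (mul_nonneg (bB_nonneg hs i) (bB_nonneg ht j))
            linarith
  have herr : 2 * |gsumR z v Y.gl X - gsumR z v Y.gl (cs.map fun c => ev2 c.1 s t)| ≤
      ∑ a ∈ Finset.range 18, (el.getD a 0 : ℝ) * z a ^ 2 := by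
    rw [gsumR_sub z v _ _ _ (by simp [hXdef, Layout.vals, hlen]), gsumR_zipWith]
    refine (eload_bound z v hv Y.gl cs _ hglr (by simp [hXdef, Layout.vals, hlen]) fun k hk' => ?_).trans
      (Finset.sum_le_sum fun a ha => mul_le_mul_of_nonneg_right
        (Nat.cast_le.2 (hl a (Finset.mem_range.1 ha))) (sq_nonneg _))
    have hk2 : k < Y.rows.length := by simpa [hXdef, Layout.vals, hlen] using hk'
    have h := hk k hk2
    rw [List.getD_eq_getElem _ _ (by simpa using hk2),
      List.getD_eq_getElem _ _ (by simpa [← hlen] using hk2)] at h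
    rw [List.getD_eq_getElem _ _ hk', List.getElem_zipWith]
    simpa [hXdef, Layout.vals] using h
  have hPe : P = 144 * (∑ a ∈ Finset.range 18, (el.getD a 0 : ℝ) * z a ^ 2) + 1000 * z 17 ^ 2 := by
    simp only [P, Int.cast_add, Int.cast_mul, add_mul, Finset.sum_add_distrib, mul_assoc,
      ← Finset.mul_sum]
    push_cast
    simp [gap, mul_assoc, apply_ite (fun q : ℤ => (q : ℝ)), ite_mul, Finset.sum_ite_eq']
  rw [hvals]
  have := mul_le_mul_of_nonneg_left (show 1000 * z 17 ^ 2 ≤ 288 * gsumR z v Y.gl X by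
    linarith [(abs_le.1 (le_refl |gsumR z v Y.gl X -
      gsumR z v Y.gl (cs.map fun c => ev2 c.1 s t)|)).1]) hu.le
  linarith
where
  vals_div (z v : ℕ → ℝ) {u : ℝ} (hu : 0 < u) : ∀ (Gs : List Gam) (R : List Row) (f : Row → ℝ),
      gsumR z v Gs (R.map f) = u * gsumR z v Gs (R.map fun r => f r / u)
    | [], R, f => by simp [gsumR]
    | G :: Gs, [], f => by simp [gsumR]
    | G :: Gs, r :: R, f => by
      simp only [List.map_cons, gsumR, vals_div z v hu Gs R f]
      field_simp

end Vale.Agent.P098.Exact.Sos
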