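import Vale.Agent.P098.Exact.Sos.Kron
import Vale.Agent.P098.Exact.Sos.Table0

/-! Checking one sum-of-squares certificate. -/

namespace Vale.Agent.P098.Exact.Sos

/-- Multiplier kinds: one, `1 - v.v`, `v 4`, `z 16 * z 17`. -/
inductive Kind
  | one | ball | half | prod

/-- Multiplier value. -/
noncomputable def Kind.ev : Kind → (ℕ → ℝ) → (ℕ → ℝ) → ℝ
  | .one, _, _ => 1
  | .ball, _, v => 1 - (v 0 ^ 2 + v 1 ^ 2 + v 2 ^ 2 + v 3 ^ 2 + v 4 ^ 2)
  | .half, _, v => v 4
  | .prod, z, _ => z 16 * z 17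

/-- Basis monomial `z_a v^g`, or `v^g` for the product multiplier. -/
structure Bas where
  /-- coordinate -/
  a : ℕ
  /-- exponents -/
  g : List ℕ

/-- Monomial in the gradient. -/
noncomputable def mon5 (g : List ℕ) (v : ℕ → ℝ) : ℝ :=
  v 0 ^ g.getD 0 0 * v 1 ^ g.getD 1 0 * v 2 ^ g.getD 2 0 * v 3 ^ g.getD 3 0 * v 4 ^ g.getD 4 0

/-- Basis value. -/
noncomputable def Bas.ev (K : Kind) (e : Bas) (z v : ℕ → ℝ) : ℝ :=
  match K with
  | .prod => mon5 e.g v
  | _ => z e.a * mon5 e.g v

/-- Sum of exponent vectors, plus `k` at position `p`. -/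
def gsum (g h : List ℕ) (p k : ℕ) : List ℕ :=
  (List.range 5).map fun i => g.getD i 0 + h.getD i 0 + if i = p then k else 0

theorem mon5_gsum (g h : List ℕ) (p k : ℕ) (v : ℕ → ℝ) (hp : p < 5) :
    mon5 (gsum g h p k) v = mon5 g v * mon5 h v * v p ^ k := by
  simp only [mon5, gsum, List.range, List.range.loop, List.map_cons, List.map_nil,
    List.getD_cons_zero, List.getD_cons_succ]
  interval_cases p <;> simp [pow_add] <;> ring

/-- Expected contributions of a product of two basis monomials. -/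
def expand (K : Kind) (e f : Bas) : List (Gam × ℤ) :=
  match K with
  | .one => [(⟨e.a, f.a, gsum e.g f.g 0 0⟩, 1)]
  | .ball => (⟨e.a, f.a, gsum e.g f.g 0 0⟩, 1) ::
      (List.range 5).map fun p => (⟨e.a, f.a, gsum e.g f.g p 2⟩, -1)
  | .half => [(⟨e.a, f.a, gsum e.g f.g 4 1⟩, 1)]
  | .prod => [(⟨16, 17, gsum e.g f.g 0 0⟩, 1)]

/-- Value of an expansion. -/
noncomputable def expVal (z v : ℕ → ℝ) : List (Gam × ℤ) → ℝ
  | [] => 0
  | p :: L => p.2 * p.1.ev z v + expVal z v L

theorem expVal_expand (K : Kind) (e f : Bas) (z v : ℕ → ℝ) :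
    expVal z v (expand K e f) = K.ev z v * e.ev K z v * f.ev K z v := by
  have h : ∀ (a b : ℕ) (g : List ℕ), Gam.ev ⟨a, b, g⟩ z v = z a * z b * mon5 g v :=
    fun _ _ _ => rfl
  have h0 := mon5_gsum e.g f.g
  cases K
  · simp [expand, expVal, h, Kind.ev, Bas.ev, h0 0 0 v (by norm_num)]; ring
  · simp [expand, expVal, h, Kind.ev, Bas.ev, List.range, List.range.loop,
      h0 0 0 v (by norm_num), h0 0 2 v (by norm_num), h0 1 2 v (by norm_num),
      h0 2 2 v (by norm_num), h0 3 2 v (by norm_num), h0 4 2 v (by norm_num)]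
    ring
  · simp [expand, expVal, h, Kind.ev, Bas.ev, h0 4 1 v (by norm_num)]; ring
  · simp [expand, expVal, h, Kind.ev, Bas.ev, h0 0 0 v (by norm_num)]; ring

/-- Same monomial. -/
def sameGam (G H : Gam) : Bool :=
  ((G.a == H.a && G.b == H.b) || (G.a == H.b && G.b == H.a)) &&
    (List.range 5).all fun i => G.g.getD i 0 == H.g.getD i 0

theorem sameGam_sound {G H : Gam} (h : sameGam G H = true) (z v : ℕ → ℝ) :
    G.ev z v = H.ev z v := by
  simp only [sameGam, Bool.and_eq_true, Bool.or_eq_true, beq_iff_eq, List.all_eq_true,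
    List.mem_range] at h
  unfold Gam.ev
  rw [h.2 0 (by norm_num), h.2 1 (by norm_num), h.2 2 (by norm_num), h.2 3 (by norm_num),
    h.2 4 (by norm_num)]
  rcases h.1 with ⟨ha, hb⟩ | ⟨ha, hb⟩ <;> rw [ha, hb]
  ring

/-- A block: kind, basis, and the indices of the products `i ≤ j`. -/
structure Block where
  /-- multiplier -/
  K : Kind
  /-- basis -/
  bas : List Bas
  /-- products -/
  pairs : List (List (List (ℕ × ℤ)))

/-- Monomial of an index. -/
def gamAt (gam : List (List Gam)) (i : ℕ) : Gam := look ⟨0, 0, []⟩ gam i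

/-- One product is correctly indexed below `n`. -/
def pairOK (n : ℕ) (gam : List (List Gam)) : List (ℕ × ℤ) → List (Gam × ℤ) → Bool
  | [], [] => true
  | p :: P, q :: Q =>
    decide (p.1 < n) && decide (p.2 = q.2) && sameGam (gamAt gam p.1) q.1 && pairOK n gam P Q
  | _, _ => false

/-- One row of products. -/
def rowOK (n : ℕ) (gam : List (List Gam)) (K : Kind) (e : Bas) :
    List Bas → List (List (ℕ × ℤ)) → Bool
  | [], [] => true
  | f :: F, P :: Ps => pairOK n gam P (expand K e f) && rowOK n gam K e F Ps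
  | _, _ => false

/-- All rows. -/
def blockOK (n : ℕ) (gam : List (List Gam)) (K : Kind) :
    List Bas → List (List (List (ℕ × ℤ))) → Bool
  | [], [] => true
  | e :: F, R :: Rs => rowOK n gam K e (e :: F) R && blockOK n gam K F Rs
  | _, _ => false

/-- Total absolute weight of the products of a block. -/
def blockWeight (Q : List (List (List (ℕ × ℤ)))) : ℕ :=
  (Q.map fun R => (R.map fun P => (P.map fun p => p.2.natAbs).sum).sum).sum

/-- Dot product. -/
noncomputable def fdot (u : List ℤ) : List ℤ → ℤ :=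
  List.rec (motive := fun _ => List ℤ → ℤ) (fun _ => Int.ofNat 0)
    (fun a _ ih w => List.rec (motive := fun _ => ℤ) (Int.ofNat 0)
      (fun b t _ => Int.add (Int.mul a b) (ih t)) w) u

/-- Residue base of stored factor entries. -/
def rbase : ℕ := 2 ^ 80

/-- Signed entry of a stored residue. -/
def sgn (a : ℕ) : ℤ := (a : ℤ) - rbase

/-- Dot product of natural numbers. -/
noncomputable def ndot (u : List ℕ) : List ℕ → ℕ :=
  List.rec (motive := fun _ => List ℕ → ℕ) (fun _ => 0)
    (fun a _ ih w => List.rec (motive := fun _ => ℕ) 0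
      (fun b t _ => Nat.add (Nat.mul a b) (ih t)) w) u

/-- Signed dot product from residues. -/
noncomputable def rdot (u w : List ℕ) : ℤ :=
  Int.subNatNat (Nat.mod (Nat.add (ndot u w) 604462909807314587353088) 1208925819614629174706176)
    604462909807314587353088

/-- Packed pattern of one product. -/
noncomputable def pat (P : List (ℕ × ℤ)) : ℤ :=
  List.rec (motive := fun _ => ℤ) (Int.ofNat 0)
    (fun p _ ih => Int.add ih (Int.mul p.2 (Int.ofNat (Nat.shiftLeft 1 (Nat.mul 96 p.1))))) P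

/-- Packed off-diagonal part of a row. -/
noncomputable def fOff (r : List ℕ) (S : List (List ℕ)) : List (List (ℕ × ℤ)) → ℤ :=
  List.rec (motive := fun _ => List (List (ℕ × ℤ)) → ℤ) (fun _ => Int.ofNat 0)
    (fun q _ ih Ps => List.rec (motive := fun _ => ℤ) (Int.ofNat 0)
      (fun P Q _ => Int.add (Int.mul (Int.mul 2 (rdot r q)) (pat P)) (ih Q)) Ps) S

/-- Packed contribution of one Gram block given by factor rows. -/
noncomputable def fBlock (R : List (List ℕ)) : List (List (List (ℕ × ℤ))) → ℤ :=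
  List.rec (motive := fun _ => List (List (List (ℕ × ℤ))) → ℤ) (fun _ => Int.ofNat 0)
    (fun r R' ih Q => List.rec (motive := fun _ => ℤ) (Int.ofNat 0)
      (fun row Q' _ => List.rec (motive := fun _ => ℤ) (Int.ofNat 0)
        (fun P Ps _ => Int.add (Int.add (Int.mul (rdot r r) (pat P)) (fOff r R' Ps)) (ih Q')) row) Q) R

/-- Entry of a factor row. -/
def ent (r : List ℤ) (c : ℕ) : ℤ := r.getD c 0

theorem fdot_cons (a b : ℤ) (u w : List ℤ) : fdot (a :: u) (b :: w) = a * b + fdot u w := rfl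

theorem fdot_nil (w : List ℤ) : fdot [] w = 0 := rfl

theorem fdot_cons_nil (a : ℤ) (u : List ℤ) : fdot (a :: u) [] = 0 := rfl

theorem fdot_eq : ∀ (m : ℕ) (r s : List ℤ), r.length ≤ m →
    fdot r s = ∑ c ∈ Finset.range m, ent r c * ent s c
  | m, [], s, _ => by simp [fdot_nil, ent]
  | m, a :: u, [], _ => by simp [fdot_cons_nil, ent]
  | 0, a :: u, b :: w, h => by simp at h
  | m + 1, a :: u, b :: w, h => by
    rw [Finset.sum_range_succ', fdot_cons, fdot_eq m u w (by simpa using h)]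
    simp only [ent, List.getD_cons_succ, List.getD_cons_zero]
    ring

/-- Bound of factor entries. -/
def Small (R : List (List ℤ)) : Prop :=
  ∀ r ∈ R, r.length ≤ 32 ∧ ∀ c, |ent r c| ≤ 2 ^ 29

theorem abs_fdot_le {R : List (List ℤ)} (hR : Small R) {r s : List ℤ} (hr : r ∈ R) (hs : s ∈ R) :
    |fdot r s| ≤ 2 ^ 63 := by
  rw [fdot_eq 32 r s (hR r hr).1]
  refine (Finset.abs_sum_le_sum_abs _ _).trans ((Finset.sum_le_card_nsmul _ _ (2 ^ 58) fun c _ => ?_).trans ?_)
  · rw [abs_mul, show (2 : ℤ) ^ 58 = 2 ^ 29 * 2 ^ 29 by norm_num]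
    exact mul_le_mul ((hR r hr).2 c) ((hR s hs).2 c) (abs_nonneg _) (by positivity)
  · norm_num

theorem ndot_modEq : ∀ u w : List ℕ,
    (ndot u w : ℤ) ≡ fdot (u.map sgn) (w.map sgn) [ZMOD 1208925819614629174706176]
  | [], w => by simp [show ndot [] w = 0 from rfl, fdot_nil]
  | a :: u, [] => by simp [show ndot (a :: u) [] = 0 from rfl, fdot_cons_nil]
  | a :: u, b :: w => by
    have e : ndot (a :: u) (b :: w) = a * b + ndot u w := rfl
    rw [List.map_cons, List.map_cons, fdot_cons, e, Nat.cast_add, Nat.cast_mul]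
    have h : ∀ c : ℕ, (c : ℤ) ≡ sgn c [ZMOD 1208925819614629174706176] := fun c => by
      rw [Int.modEq_iff_dvd]
      exact ⟨-1, by simp [sgn, rbase]⟩
    exact ((h a).mul (h b)).add (ndot_modEq u w)

theorem rdot_eq {R : List (List ℕ)} (hR : Small (R.map (List.map sgn))) {r s : List ℕ}
    (hr : r ∈ R) (hs : s ∈ R) : rdot r s = fdot (r.map sgn) (s.map sgn) := by
  have hb := abs_le.1 (abs_fdot_le hR (List.mem_map.2 ⟨r, hr, rfl⟩) (List.mem_map.2 ⟨s, hs, rfl⟩))
  have hm := ndot_modEq r s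
  rw [Int.modEq_iff_dvd] at hm
  obtain ⟨k, hk⟩ := hm
  show Int.subNatNat ((ndot r s + 604462909807314587353088) % 1208925819614629174706176)
    604462909807314587353088 = _
  rw [Int.subNatNat_eq_coe]
  push_cast
  rw [show (ndot r s : ℤ) + 604462909807314587353088 =
      (fdot (r.map sgn) (s.map sgn) + 604462909807314587353088) +
        1208925819614629174706176 * -k by linarith,
    Int.add_mul_emod_self_left, Int.emod_eq_of_lt (by linarith) (by linarith)]
  ring

variable (n : ℕ) (gam : List (List Gam)) (z v : ℕ → ℝ)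

/-- Weight of an index. -/
noncomputable def gw (i : ℕ) : ℝ := (gamAt gam i).ev z v

/-- Value of a coefficient vector. -/
noncomputable def gv (f : ℕ → ℤ) : ℝ := ∑ k ∈ Finset.range n, (f k : ℝ) * gw gam z v k

/-- Linear combination of factor rows at column `c`. -/
noncomputable def col (K : Kind) : List Bas → List (List ℤ) → ℕ → ℝ
  | e :: F, r :: R, c => e.ev K z v * ent r c + col K F R c
  | _, _, _ => 0

/-- A packed integer `Z` of coefficient bound `B` and value `V`. -/
def Rep (Z : ℤ) (B : ℤ) (V : ℝ) : Prop :=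
  ∃ f : ℕ → ℤ, Z = pk 96 n f ∧ (∀ k, |f k| ≤ B) ∧ gv n gam z v f = V

theorem Rep.zero : Rep n gam z v 0 0 0 := ⟨fun _ => 0, by simp [pk], by simp, by simp [gv]⟩

theorem Rep.add {Z Z' B B' : ℤ} {V V' : ℝ} (h : Rep n gam z v Z B V)
    (h' : Rep n gam z v Z' B' V') : Rep n gam z v (Z + Z') (B + B') (V + V') := by
  obtain ⟨f, h1, h2, h3⟩ := h
  obtain ⟨g, g1, g2, g3⟩ := h'
  refine ⟨fun k => f k + g k, ?_, fun k => (abs_add_le _ _).trans (add_le_add (h2 k) (g2 k)), ?_⟩
  · simp [h1, g1, pk, add_mul, Finset.sum_add_distrib]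
  · simp [← h3, ← g3, gv, add_mul, Finset.sum_add_distrib]

theorem Rep.smul {Z B : ℤ} {V : ℝ} (c : ℤ) {C : ℤ} (hc : |c| ≤ C) (h : Rep n gam z v Z B V) :
    Rep n gam z v (c * Z) (C * B) (c * V) := by
  obtain ⟨f, h1, h2, h3⟩ := h
  refine ⟨fun k => c * f k, ?_, fun k => ?_, ?_⟩
  · simp [h1, pk, Finset.mul_sum, mul_assoc]
  · rw [abs_mul]
    exact mul_le_mul hc (h2 k) (abs_nonneg _) ((abs_nonneg c).trans hc)
  · simp [← h3, gv, Finset.mul_sum, mul_assoc]

theorem Rep.mono {Z B B' : ℤ} {V : ℝ} (hB : B ≤ B') (h : Rep n gam z v Z B V) :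
    Rep n gam z v Z B' V := by
  obtain ⟨f, h1, h2, h3⟩ := h
  exact ⟨f, h1, fun k => (h2 k).trans hB, h3⟩

theorem pat_nil : pat [] = 0 := rfl

theorem pat_cons (p : ℕ × ℤ) (P : List (ℕ × ℤ)) :
    pat (p :: P) = pat P + p.2 * ((Nat.shiftLeft 1 (96 * p.1) : ℕ) : ℤ) := rfl

theorem pat_spec : ∀ (P : List (ℕ × ℤ)) (Q : List (Gam × ℤ)), pairOK n gam P Q = true →
    Rep n gam z v (pat P) ((P.map fun p => p.2.natAbs).sum : ℕ) (expVal z v Q)
  | [], [], _ => by simpa [pat_nil, expVal] using Rep.zero n gam z v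
  | p :: P, q :: Q, h => by
    simp only [pairOK, Bool.and_eq_true, decide_eq_true_eq] at h
    have ih := pat_spec P Q h.2
    have h1 : Rep n gam z v ((Nat.shiftLeft 1 (96 * p.1) : ℕ) : ℤ) 1 (q.1.ev z v) := by
      refine ⟨fun k => if k = p.1 then 1 else 0, ?_, fun k => by dsimp only; split <;> simp, ?_⟩
      · simp [pk, Finset.sum_ite_eq', h.1.1.1, base, Nat.shiftLeft_eq, pow_mul]
      · simp [gv, apply_ite (fun q : ℤ => (q : ℝ)), ite_mul, Finset.sum_ite_eq', h.1.1.1, gw,
          sameGam_sound h.1.2]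
    have h2 := Rep.add n gam z v ih (Rep.smul n gam z v p.2 le_rfl h1)
    rw [pat_cons]
    simp only [List.map_cons, List.sum_cons, expVal, ← h.1.1.2]
    refine Rep.mono n gam z v ?_ (by rwa [add_comm (_ * _ : ℝ)])
    push_cast
    linarith
  | [], _ :: _, h => by simp [pairOK] at h
  | _ :: _, [], h => by simp [pairOK] at h

theorem fOff_nil (r : List ℕ) (Ps : List (List (ℕ × ℤ))) : fOff r [] Ps = 0 := rfl

theorem fOff_cons (r q : List ℕ) (S : List (List ℕ)) (P : List (ℕ × ℤ))
    (Ps : List (List (ℕ × ℤ))) :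
    fOff r (q :: S) (P :: Ps) = 2 * rdot r q * pat P + fOff r S Ps := rfl

theorem fOff_cons_nil (r q : List ℕ) (S : List (List ℕ)) : fOff r (q :: S) [] = 0 := rfl

theorem fOff_spec (K : Kind) (e : Bas) (R : List (List ℕ)) (hR : Small (R.map (List.map sgn)))
    (r : List ℕ)
    (hr : r ∈ R) :
    ∀ (F : List Bas) (S : List (List ℕ)) (Ps : List (List (ℕ × ℤ))),
    rowOK n gam K e F Ps = true → (∀ s ∈ S, s ∈ R) →
    Rep n gam z v (fOff r S Ps)
      (2 ^ 64 * ((Ps.map fun P => (P.map fun p => p.2.natAbs).sum).sum : ℕ))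
      (K.ev z v * (2 * e.ev K z v * ∑ c ∈ Finset.range 32, (ent (r.map sgn) c : ℝ) * col z v K F (S.map (List.map sgn)) c))
  | [], S, [], _, _ => by cases S <;> simpa [fOff_nil, fOff_cons_nil, col] using Rep.zero n gam z v
  | f :: F, [], P :: Ps, _, _ => by
    refine Rep.mono n gam z v (B := 0) (mul_nonneg (by norm_num) (Int.natCast_nonneg _)) ?_
    simpa [fOff_nil, col] using Rep.zero n gam z v
  | f :: F, s :: S, P :: Ps, h, hS => by
    simp only [rowOK, Bool.and_eq_true] at h
    have hs := hS s (by simp)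
    have ed := rdot_eq hR hr hs
    have hb : |2 * rdot r s| ≤ 2 ^ 64 := by
      rw [ed, abs_mul, show (2 : ℤ) ^ 64 = 2 * 2 ^ 63 by norm_num, abs_two]
      linarith [abs_fdot_le hR (List.mem_map.2 ⟨r, hr, rfl⟩) (List.mem_map.2 ⟨s, hs, rfl⟩)]
    have h1 := Rep.smul n gam z v _ hb (pat_spec n gam z v P _ h.1)
    have h2 := fOff_spec K e R hR r hr F S Ps h.2 (fun q hq => hS q (by simp [hq]))
    have h3 := Rep.add n gam z v h1 h2
    rw [fOff_cons]
    obtain ⟨g, g1, g2, g3⟩ := h3
    refine ⟨g, g1, fun k => (g2 k).trans_eq (by simp [mul_add]), ?_⟩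
    rw [g3, expVal_expand, ed]
    push_cast
    have hl := (hR _ (List.mem_map.2 ⟨r, hr, rfl⟩)).1
    rw [fdot_eq 32 (r.map sgn) (s.map sgn) hl]
    push_cast
    have e1 : ∑ c ∈ Finset.range 32, (ent (r.map sgn) c : ℝ) *
          col z v K (f :: F) ((s :: S).map (List.map sgn)) c =
        f.ev K z v * (∑ c ∈ Finset.range 32, (ent (r.map sgn) c : ℝ) * ent (s.map sgn) c) +
          ∑ c ∈ Finset.range 32, (ent (r.map sgn) c : ℝ) * col z v K F (S.map (List.map sgn)) c := by
      rw [Finset.mul_sum, ← Finset.sum_add_distrib]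
      exact Finset.sum_congr rfl fun x _ => by simp only [List.map_cons, col]; ring
    rw [e1]
    ring
  | [], _, _ :: _, h, _ => by simp [rowOK] at h
  | _ :: _, _, [], h, _ => by simp [rowOK] at h

theorem fBlock_nil (Q : List (List (List (ℕ × ℤ)))) : fBlock [] Q = 0 := rfl

theorem fBlock_cons_nil (r : List ℕ) (R : List (List ℕ)) : fBlock (r :: R) [] = 0 := rfl

theorem fBlock_cons (r : List ℕ) (R : List (List ℕ)) (P : List (ℕ × ℤ))
    (Ps : List (List (ℕ × ℤ))) (Q : List (List (List (ℕ × ℤ)))) :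
    fBlock (r :: R) ((P :: Ps) :: Q) = rdot r r * pat P + fOff r R Ps + fBlock R Q := rfl

theorem fBlock_spec (K : Kind) :
    ∀ (F : List Bas) (R : List (List ℕ)) (Q : List (List (List (ℕ × ℤ)))),
    blockOK n gam K F Q = true → Small (R.map (List.map sgn)) →
    Rep n gam z v (fBlock R Q) (2 ^ 64 * (blockWeight Q : ℕ))
      (K.ev z v * ∑ c ∈ Finset.range 32, col z v K F (R.map (List.map sgn)) c ^ 2)
  | [], R, [], _, _ => by
    cases R <;> simpa [fBlock_nil, fBlock_cons_nil, col, blockWeight] using Rep.zero n gam z v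
  | e :: F, [], P :: Q, _, _ => by
    simpa [fBlock_nil, col] using Rep.mono n gam z v (by positivity) (Rep.zero n gam z v)
  | e :: F, r :: R, [] :: Q, h, _ => by simp [blockOK, rowOK] at h
  | e :: F, r :: R, (P :: Ps) :: Q, h, hR => by
    simp only [blockOK, rowOK, Bool.and_eq_true] at h
    have hm : r.map sgn ∈ (r :: R).map (List.map sgn) := by simp
    have ed := rdot_eq hR (r := r) (s := r) (by simp) (by simp)
    have hb : |rdot r r| ≤ 2 ^ 64 := ed ▸ (abs_fdot_le hR hm hm).trans (by norm_num)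
    have h1 := Rep.smul n gam z v _ hb (pat_spec n gam z v P _ h.1.1)
    have h2 := fOff_spec n gam z v K e (r :: R) hR r (by simp) F R Ps h.1.2
      (fun s hs => by simp [hs])
    have h3 := fBlock_spec K F R Q h.2 (fun s hs => hR s (List.mem_cons_of_mem _ hs))
    obtain ⟨g, g1, g2, g3⟩ := Rep.add n gam z v (Rep.add n gam z v h1 h2) h3
    rw [fBlock_cons]
    refine ⟨g, g1, fun k => (g2 k).trans_eq (by simp [blockWeight, mul_add, add_assoc]), ?_⟩
    rw [g3, expVal_expand, ed, fdot_eq 32 (r.map sgn) (r.map sgn) (hR _ hm).1]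
    push_cast
    have e1 : ∑ c ∈ Finset.range 32, col z v K (e :: F) ((r :: R).map (List.map sgn)) c ^ 2 =
        e.ev K z v ^ 2 * (∑ c ∈ Finset.range 32, (ent (r.map sgn) c : ℝ) * ent (r.map sgn) c) +
          2 * e.ev K z v * (∑ c ∈ Finset.range 32, (ent (r.map sgn) c : ℝ) *
            col z v K F (R.map (List.map sgn)) c) +
          ∑ c ∈ Finset.range 32, col z v K F (R.map (List.map sgn)) c ^ 2 := by
      rw [Finset.mul_sum, Finset.mul_sum, ← Finset.sum_add_distrib, ← Finset.sum_add_distrib]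
      exact Finset.sum_congr rfl fun x _ => by simp only [List.map_cons, col]; ring
    rw [e1]
    ring
  | [], _, _ :: _, h, _ => by simp [blockOK] at h
  | _ :: _, _, [], h, _ => by simp [blockOK] at h

/-- One factor row in 30-bit slots. -/
noncomputable def fRow (k : ℕ) : ℕ → List ℕ :=
  Nat.rec (motive := fun _ => ℕ → List ℕ) (fun _ => [])
    (fun _ ih N => Nat.add (Nat.mod N 1073741824) 1208925819614628637835264 ::
      ih (Nat.div N 1073741824)) k

/-- All factor rows of a triangular factor, starting with a row of length `i`. -/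
noncomputable def fRows (k : ℕ) : ℕ → ℕ → List (List ℕ) :=
  Nat.rec (motive := fun _ => ℕ → ℕ → List (List ℕ)) (fun _ _ => [])
    (fun _ ih i N => fRow i N :: ih (Nat.succ i) (Nat.shiftRight N (Nat.mul 30 i))) k

theorem fRow_small : ∀ (k N : ℕ),
    ((fRow k N).map sgn).length = k ∧ ∀ c, |ent ((fRow k N).map sgn) c| ≤ 2 ^ 29
  | 0, N => ⟨rfl, fun c => by simp [fRow, ent]⟩
  | k + 1, N => by
    obtain ⟨h1, h2⟩ := fRow_small k (N / 1073741824)
    have e : fRow (k + 1) N = (N % 1073741824 + 1208925819614628637835264) ::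
        fRow k (N / 1073741824) := rfl
    refine ⟨by simp [e] at h1 ⊢; exact h1, fun c => ?_⟩
    rw [e, List.map_cons]
    cases c with
    | zero =>
      simp only [ent, List.getD_cons_zero, sgn, rbase]
      have := Nat.mod_lt N (show 1073741824 > 0 by norm_num)
      rw [abs_le]
      constructor <;> push_cast <;> omega
    | succ c => simpa [ent] using h2 c

theorem fRows_small : ∀ (k i N : ℕ), i + k ≤ 33 → Small ((fRows k i N).map (List.map sgn))
  | 0, i, N, _ => fun r hr => by simp [fRows] at hr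
  | k + 1, i, N, h => by
    have e : fRows (k + 1) i N = fRow i N :: fRows k (i + 1) (N >>> (30 * i)) := rfl
    intro r hr
    rw [e, List.map_cons, List.mem_cons] at hr
    rcases hr with rfl | hr
    · exact ⟨(fRow_small i N).1.trans_le (by omega), (fRow_small i N).2⟩
    · exact fRows_small k (i + 1) _ (by omega) r hr

/-- Packed contribution of all blocks. -/
noncomputable def fAll (Bs : List Block) : List ℕ → ℤ :=
  List.rec (motive := fun _ => List ℕ → ℤ) (fun _ => Int.ofNat 0)
    (fun b _ ih Ns => List.rec (motive := fun _ => ℤ) (Int.ofNat 0)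
      (fun N Ns' _ => Int.add (fBlock (fRows b.bas.length 1 N) b.pairs) (ih Ns')) Ns) Bs

theorem fAll_spec (hball : v 0 ^ 2 + v 1 ^ 2 + v 2 ^ 2 + v 3 ^ 2 + v 4 ^ 2 ≤ 1) (hw : 0 ≤ v 4)
    (hab : 0 ≤ z 16 * z 17) :
    ∀ (Bs : List Block) (Ns : List ℕ),
    Bs.all (fun b => blockOK n gam b.K b.bas b.pairs && decide (b.bas.length ≤ 32)) = true →
    ∃ V, 0 ≤ V ∧ Rep n gam z v (fAll Bs Ns)
      (2 ^ 64 * ((Bs.map fun b => blockWeight b.pairs).sum : ℕ)) V
  | [], Ns, _ => ⟨0, le_rfl, by simpa [show fAll [] Ns = 0 from rfl] using Rep.zero n gam z v⟩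
  | b :: Bs, [], _ => ⟨0, le_rfl, by
      refine Rep.mono n gam z v (B := 0) (mul_nonneg (by norm_num) (Int.natCast_nonneg _)) ?_
      simpa [show fAll (b :: Bs) [] = 0 from rfl] using Rep.zero n gam z v⟩
  | b :: Bs, N :: Ns, h => by
    simp only [List.all_cons, Bool.and_eq_true, decide_eq_true_eq] at h
    have hK : 0 ≤ b.K.ev z v := by
      cases b.K <;> simp [Kind.ev, hw, hab]
      linarith
    obtain ⟨V, hV, hrep⟩ := fAll_spec hball hw hab Bs Ns
      (by simpa [List.all_eq_true] using h.2)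
    have hb := fBlock_spec n gam z v b.K b.bas _ b.pairs h.1.1
      (fRows_small b.bas.length 1 N (by have := h.1.2; omega))
    refine ⟨b.K.ev z v * ∑ c ∈ Finset.range 32, col z v b.K b.bas ((fRows b.bas.length 1 N).map (List.map sgn)) c ^ 2 + V,
      add_nonneg (mul_nonneg hK (Finset.sum_nonneg fun c _ => sq_nonneg _)) hV, ?_⟩
    have e : fAll (b :: Bs) (N :: Ns) =
        fBlock (fRows b.bas.length 1 N) b.pairs + fAll Bs Ns := rfl
    rw [e]
    exact Rep.mono n gam z v (by simp [mul_add]) (Rep.add n gam z v hb hrep)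

end Vale.Agent.P098.Exact.Sos
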