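import Vale.Agent.P098.Exact.Sos.Kron

/-! Digits of a packed vector and their absolute sum, with few big number operations. -/

namespace Vale.Agent.P098.Exact.Sos

/-- The number with all digits one, in closed form. -/
def onesF (w n : ℕ) : ℕ := (2 ^ (w * n) - 1) / (2 ^ w - 1)

theorem ones_nat (w : ℕ) : ∀ n, (2 ^ w - 1) * ones w n + 1 = 2 ^ (w * n)
  | 0 => by simp [show ones w 0 = 0 from rfl]
  | n + 1 => by
    rw [ones_succ, base, show w * (n + 1) = w * n + w by ring, pow_add, ← ones_nat w n]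
    obtain ⟨m, hm⟩ : ∃ m, 2 ^ w = m + 1 := ⟨2 ^ w - 1, by have := Nat.one_le_two_pow (n := w); omega⟩
    rw [hm]
    simp only [Nat.add_sub_cancel]
    ring

theorem onesF_eq (w : ℕ) (hw : 0 < w) (n : ℕ) : onesF w n = ones w n := by
  have h2 : 2 ≤ 2 ^ w := by
    calc 2 = 2 ^ 1 := rfl
      _ ≤ 2 ^ w := Nat.pow_le_pow_right (by norm_num) hw
  rw [onesF, ← ones_nat w n, Nat.add_sub_cancel, Nat.mul_div_cancel_left _ (by omega)]

/-- The natural number with the shifted digits of a packed vector. -/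
def offs (w n : ℕ) (Z : ℤ) : ℕ := Int.toNat (Int.add Z (Int.ofNat (Nat.mul (half w) (onesF w n))))

/-- A digit of an offset number. -/
def dg (w N k : ℕ) : ℤ :=
  Int.subNatNat (Nat.mod (Nat.shiftRight N (Nat.mul w k)) (base w)) (half w)

theorem dg_eq (w N k : ℕ) : dg w N k = dig w N k := by
  show Int.subNatNat ((N >>> (w * k)) % base w) (half w) = _
  simp [dig, base, Int.subNatNat_eq_coe, Nat.shiftRight_eq_div_pow, pow_mul]

theorem offs_cast (w : ℕ) (hw : 0 < w) (n : ℕ) (f : ℕ → ℤ) (hf : ∀ k, k < n → |f k| < half w) :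
    (offs w n (pk w n f) : ℤ) = pk w n f + half w * ones w n := by
  have h0 : 0 ≤ pk w n f + half w * (ones w n : ℤ) := by
    rw [ones_eq, pk, Finset.mul_sum, ← Finset.sum_add_distrib]
    refine Finset.sum_nonneg fun j hj => ?_
    rw [← add_mul]
    have := abs_lt.1 (hf j (Finset.mem_range.1 hj))
    exact mul_nonneg (by linarith) (pow_nonneg (Int.natCast_nonneg _) _)
  rw [offs, onesF_eq w hw, Int.toNat_of_nonneg (by simpa [Int.ofNat_eq_natCast] using h0)]
  simp [Int.ofNat_eq_natCast]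

theorem dg_offs (w : ℕ) (hw : 0 < w) (n : ℕ) (f : ℕ → ℤ) (hf : ∀ k, k < n → |f k| < half w)
    (k : ℕ) (hk : k < n) : dg w (offs w n (pk w n f)) k = f k := by
  rw [dg_eq]
  exact dig_of_pk w hw n _ f hf (offs_cast w hw n f hf) k hk

theorem land_split (w a b c d : ℕ) (ha : a < 2 ^ w) (hc : c < 2 ^ w) :
    (a + 2 ^ w * b) &&& (c + 2 ^ w * d) = (a &&& c) + 2 ^ w * (b &&& d) := by
  conv_lhs => rw [← Nat.mod_add_div ((a + 2 ^ w * b) &&& (c + 2 ^ w * d)) (2 ^ w)]
  rw [Nat.and_mod_two_pow, Nat.and_div_two_pow]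
  simp [Nat.add_mul_mod_self_left, Nat.mod_eq_of_lt ha, Nat.mod_eq_of_lt hc,
    Nat.add_mul_div_left _ _ (Nat.two_pow_pos w), Nat.div_eq_of_lt ha, Nat.div_eq_of_lt hc]

/-- Packed natural vector. -/
noncomputable def npk (w n : ℕ) (a : ℕ → ℕ) : ℕ := ∑ k ∈ Finset.range n, a k * base w ^ k

theorem npk_succ (w n : ℕ) (a : ℕ → ℕ) :
    npk w (n + 1) a = a 0 + base w * npk w n fun k => a (k + 1) := by
  rw [npk, Finset.sum_range_succ', npk, Finset.mul_sum, add_comm]
  simp only [pow_zero, mul_one]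
  congr 1
  exact Finset.sum_congr rfl fun x _ => by rw [pow_succ]; ring

theorem land_npk (w : ℕ) : ∀ (n : ℕ) (a b : ℕ → ℕ), (∀ k, a k < 2 ^ w) → (∀ k, b k < 2 ^ w) →
    npk w n a &&& npk w n b = npk w n fun k => a k &&& b k
  | 0, a, b, _, _ => by simp [npk]
  | n + 1, a, b, ha, hb => by
    rw [npk_succ, npk_succ, npk_succ, base, land_split w _ _ _ _ (ha 0) (hb 0),
      land_npk w n _ _ (fun k => ha _) (fun k => hb _)]

/-- Top bit of every slot. -/
def tops (w n Y : ℕ) : ℕ := Nat.shiftRight Y (w - 1) &&& onesF w n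

theorem tops_npk (w : ℕ) (hw : 0 < w) : ∀ (n : ℕ) (y : ℕ → ℕ), (∀ k, y k < 2 ^ w) →
    tops w n (npk w n y) = npk w n fun k => y k / half w := by
  intro n y hy
  rw [tops, onesF_eq w hw]
  induction n generalizing y with
  | zero => simp [npk, show ones w 0 = 0 from rfl]
  | succ n ih =>
    obtain ⟨m, rfl⟩ : ∃ m, w = m + 1 := ⟨w - 1, by omega⟩
    have hh : y 0 / half (m + 1) < 2 := by
      rw [Nat.div_lt_iff_lt_mul (by simp [half])]
      calc y 0 < 2 ^ (m + 1) := hy 0
        _ = 2 * half (m + 1) := by simp [half, pow_succ]; ring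
    have hx : y 0 / half (m + 1) &&& 1 = y 0 / half (m + 1) := by
      rw [Nat.and_one_is_mod, Nat.mod_eq_of_lt hh]
    rw [npk_succ, npk_succ, ones_succ, base, Nat.shiftRight_eq, Nat.shiftRight_eq_div_pow]
    simp only [Nat.add_sub_cancel]
    rw [← ih (fun k => y (k + 1)) (fun k => hy _), Nat.shiftRight_eq, Nat.shiftRight_eq_div_pow]
    simp only [Nat.add_sub_cancel]
    generalize npk (m + 1) n (fun k => y (k + 1)) = Y
    rw [show y 0 + 2 ^ (m + 1) * Y = y 0 + 2 ^ m * (2 * Y) by ring,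
      Nat.add_mul_div_left _ _ (Nat.two_pow_pos m)]
    set Q := Y / 2 ^ m with hQ
    have h2 : y 0 / 2 ^ m + 2 * Y = (y 0 / 2 ^ m + 2 * (Y % 2 ^ m)) + 2 ^ (m + 1) * Q := by
      rw [hQ]; have := Nat.mod_add_div Y (2 ^ m); rw [pow_succ]; linarith
    have h3 : y 0 / 2 ^ m + 2 * (Y % 2 ^ m) < 2 ^ (m + 1) := by
      have h4 := Nat.mod_lt Y (Nat.two_pow_pos m)
      have h5 : y 0 / 2 ^ m < 2 := hh
      rw [pow_succ]; omega
    rw [h2, land_split (m + 1) _ _ 1 _ h3 (Nat.one_lt_two_pow (by omega))]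
    congr 1
    rw [Nat.and_one_is_mod, Nat.add_mul_mod_self_left, ← Nat.and_one_is_mod]
    exact hx

/-- Absolute sum of the digits of a packed vector. -/
def absSum (w n : ℕ) (Z : ℤ) : ℕ :=
  let Y := offs w n Z
  let S := tops w n Y
  let P := Nat.sub (Y &&& (Nat.mul S (2 ^ w - 1))) (Nat.mul (half w) S)
  Nat.add (Nat.mod P (2 ^ w - 1)) (Nat.mod (Int.toNat (Int.sub (Int.ofNat P) Z)) (2 ^ w - 1))

theorem npk_mod (w : ℕ) (n : ℕ) (a : ℕ → ℕ)
    (h : ∑ k ∈ Finset.range n, a k < 2 ^ w - 1) :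
    npk w n a % (2 ^ w - 1) = ∑ k ∈ Finset.range n, a k := by
  have hb : base w % (2 ^ w - 1) = 1 % (2 ^ w - 1) := by
    have h1 : base w = 1 + (2 ^ w - 1) := by
      have := Nat.one_le_two_pow (n := w)
      simp only [base]; omega
    rw [h1, Nat.add_mod_right]
  have e : Nat.ModEq (2 ^ w - 1) (npk w n a) (∑ k ∈ Finset.range n, a k) := by
    rw [npk]
    refine Nat.ModEq.sum fun k _ => ?_
    have := Nat.ModEq.mul_left (a k) (Nat.ModEq.pow k (show Nat.ModEq (2 ^ w - 1) (base w) 1 from hb))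
    simpa using this
  exact Eq.trans e (Nat.mod_eq_of_lt h)

theorem absSum_eq (w : ℕ) (hw : 0 < w) (n : ℕ) (f : ℕ → ℤ) (hf : ∀ k, |f k| < half w)
    (hs : ∑ k ∈ Finset.range n, (f k).natAbs < 2 ^ w - 1) :
    absSum w n (pk w n f) = ∑ k ∈ Finset.range n, (f k).natAbs := by
  have hb : (2 : ℤ) ^ w = 2 * half w := by
    obtain ⟨m, rfl⟩ : ∃ m, w = m + 1 := ⟨w - 1, by omega⟩
    simp [half, pow_succ]
    ring
  have hb' : 2 ^ w = 2 * half w := by exact_mod_cast hb
  set y : ℕ → ℕ := fun k => (f k + half w).toNat with hy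
  have hyc : ∀ k, ((y k : ℕ) : ℤ) = f k + half w := fun k =>
    Int.toNat_of_nonneg (by linarith [(abs_lt.1 (hf k)).1])
  have hylt : ∀ k, y k < 2 ^ w := fun k => by
    have := hyc k; have := (abs_lt.1 (hf k)).2; omega
  have hY : offs w n (pk w n f) = npk w n y := by
    have := offs_cast w hw n f fun k _ => hf k
    have e : ((npk w n y : ℕ) : ℤ) = pk w n f + half w * ones w n := by
      rw [ones_eq, pk, npk, Finset.mul_sum, ← Finset.sum_add_distrib]
      push_cast
      exact Finset.sum_congr rfl fun k _ => by rw [hyc k, add_mul]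
    omega
  set s : ℕ → ℕ := fun k => if 0 ≤ f k then 1 else 0 with hs'
  have hS : tops w n (offs w n (pk w n f)) = npk w n s := by
    rw [hY, tops_npk w hw n y hylt]
    congr 1
    funext k
    have h1 := hyc k
    have h2 := hylt k
    simp only [hs']
    split
    · exact Nat.div_eq_of_lt_le (by omega) (by omega)
    · exact Nat.div_eq_of_lt (by omega)
  have hM : Nat.mul (npk w n s) (2 ^ w - 1) = npk w n fun k => s k * (2 ^ w - 1) := by
    simp only [Nat.mul_eq, npk, Finset.sum_mul]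
    exact Finset.sum_congr rfl fun k _ => by ring
  set p : ℕ → ℕ := fun k => (f k).toNat with hp
  set q : ℕ → ℕ := fun k => (-f k).toNat with hq
  have hA : npk w n y &&& (npk w n fun k => s k * (2 ^ w - 1)) =
      npk w n p + Nat.mul (half w) (npk w n s) := by
    have hm : ∀ k, s k * (2 ^ w - 1) < 2 ^ w := fun k => by
      have := Nat.one_le_two_pow (n := w)
      simp only [hs']; split <;> omega
    rw [land_npk w n y _ hylt hm]
    simp only [Nat.mul_eq, npk, Finset.mul_sum, ← Finset.sum_add_distrib]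
    refine Finset.sum_congr rfl fun k _ => ?_
    rw [← mul_assoc, ← add_mul]
    congr 1
    have h1 := hyc k
    simp only [hs', hp]
    split
    · rw [one_mul, Nat.and_two_pow_sub_one_eq_mod, Nat.mod_eq_of_lt (hylt k)]
      omega
    · simp; omega
  have hP : Nat.sub (npk w n y &&& (npk w n fun k => s k * (2 ^ w - 1)))
      (Nat.mul (half w) (npk w n s)) = npk w n p := by
    rw [hA]; exact Nat.add_sub_cancel _ _
  have hQ : Int.toNat (Int.sub (Int.ofNat (npk w n p)) (pk w n f)) = npk w n q := by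
    have e : ((npk w n q : ℕ) : ℤ) = (npk w n p : ℤ) - pk w n f := by
      simp only [npk, pk]
      push_cast
      rw [← Finset.sum_sub_distrib]
      exact Finset.sum_congr rfl fun k _ => by
        rw [← sub_mul]; congr 1; simp only [hp, hq]; omega
    have : (Int.ofNat (npk w n p)).sub (pk w n f) = (npk w n p : ℤ) - pk w n f := rfl
    omega
  have hsum : ∑ k ∈ Finset.range n, p k + ∑ k ∈ Finset.range n, q k =
      ∑ k ∈ Finset.range n, (f k).natAbs := by
    rw [← Finset.sum_add_distrib]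
    exact Finset.sum_congr rfl fun k _ => by simp only [hp, hq]; omega
  have hmodp := npk_mod w n p (by omega)
  have hmodq := npk_mod w n q (by omega)
  simp only [absSum]
  rw [hS, hY, hM, hP, hQ]
  show npk w n p % (2 ^ w - 1) + npk w n q % (2 ^ w - 1) = _
  rw [hmodp, hmodq, hsum]

end Vale.Agent.P098.Exact.Sos
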