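import Mathlib

/-! Truncated bivariate integer polynomials with rigorous error on the square `[-1,1]^2`. -/

namespace Vale.Agent.P098.Exact.Sos

/-- Value of a coefficient list at `t`. -/
noncomputable def ev1 : List ℤ → ℝ → ℝ
  | [], _ => 0
  | a :: l, t => a + t * ev1 l t

/-- Value of coefficient rows at `(s, t)`. -/
noncomputable def ev2 : List (List ℤ) → ℝ → ℝ → ℝ
  | [], _, _ => 0
  | r :: L, s, t => ev1 r t + s * ev2 L s t

/-- Absolute sum. -/
def abs1 : List ℤ → ℕ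
  | [] => 0
  | a :: l => a.natAbs + abs1 l

theorem abs_ev1_le (l : List ℤ) {t : ℝ} (ht : |t| ≤ 1) : |ev1 l t| ≤ abs1 l := by
  induction l with
  | nil => simp [ev1, abs1]
  | cons a l ih =>
    simp only [ev1, abs1, Nat.cast_add]
    refine (abs_add_le _ _).trans (add_le_add ?_ ?_)
    · rw [Nat.cast_natAbs, Int.cast_abs]
    · rw [abs_mul]
      exact (mul_le_mul ht ih (abs_nonneg _) zero_le_one).trans_eq (one_mul _)

/-- Absolute sum of rows. -/
def abs2 : List (List ℤ) → ℕ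
  | [] => 0
  | r :: L => abs1 r + abs2 L

theorem abs_ev2_le (L : List (List ℤ)) {s t : ℝ} (hs : |s| ≤ 1) (ht : |t| ≤ 1) :
    |ev2 L s t| ≤ abs2 L := by
  induction L with
  | nil => simp [ev2, abs2]
  | cons r L ih =>
    simp only [ev2, abs2, Nat.cast_add]
    refine (abs_add_le _ _).trans (add_le_add (abs_ev1_le r ht) ?_)
    rw [abs_mul]
    exact (mul_le_mul hs ih (abs_nonneg _) zero_le_one).trans_eq (one_mul _)

/-- `a + c * b`. -/
def axpy1 (c : ℤ) : List ℤ → List ℤ → List ℤ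
  | [], b => b.map (c * ·)
  | x :: a, [] => x :: a
  | x :: a, y :: b => (x + c * y) :: axpy1 c a b

theorem ev1_map (c : ℤ) (t : ℝ) : ∀ b, ev1 (b.map (c * ·)) t = c * ev1 b t
  | [] => by simp [ev1]
  | y :: b => by simp [ev1, ev1_map c t b]; ring

theorem ev1_axpy (c : ℤ) (t : ℝ) : ∀ a b, ev1 (axpy1 c a b) t = ev1 a t + c * ev1 b t
  | [], b => by simp [axpy1, ev1, ev1_map]
  | x :: a, [] => by simp [axpy1, ev1]
  | x :: a, y :: b => by simp [axpy1, ev1, ev1_axpy c t a b]; ring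

/-- `a + c * b` on rows. -/
def axpy2 (c : ℤ) : List (List ℤ) → List (List ℤ) → List (List ℤ)
  | [], b => b.map (fun r => r.map (c * ·))
  | x :: a, [] => x :: a
  | x :: a, y :: b => axpy1 c x y :: axpy2 c a b

theorem ev2_map (c : ℤ) (s t : ℝ) :
    ∀ b, ev2 (b.map (fun r => r.map (c * ·))) s t = c * ev2 b s t
  | [] => by simp [ev2]
  | y :: b => by simp [ev2, ev1_map, ev2_map c s t b]; ring

theorem ev2_axpy (c : ℤ) (s t : ℝ) :
    ∀ a b, ev2 (axpy2 c a b) s t = ev2 a s t + c * ev2 b s t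
  | [], b => by simp [axpy2, ev2, ev2_map]
  | x :: a, [] => by simp [axpy2, ev2]
  | x :: a, y :: b => by simp [axpy2, ev2, ev1_axpy, ev2_axpy c s t a b]; ring

/-- Multiply by `s`. -/
def shS (p : List (List ℤ)) : List (List ℤ) := [] :: p

/-- Multiply by `t`. -/
def shT (p : List (List ℤ)) : List (List ℤ) := p.map (0 :: ·)

theorem ev2_shS (p : List (List ℤ)) (s t : ℝ) : ev2 (shS p) s t = s * ev2 p s t := by
  simp [shS, ev2, ev1]

theorem ev2_shT (s t : ℝ) : ∀ p, ev2 (shT p) s t = t * ev2 p s t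
  | [] => by simp [shT, ev2]
  | r :: p => by
    have := ev2_shT s t p
    simp only [shT] at this
    simp [shT, ev2, ev1, this]; ring

/-- A quadratic without mixed term: constant, `s`, `t`, `s^2`, `t^2`. -/
structure Quad where
  /-- constant -/
  c0 : ℤ
  /-- linear in `s` -/
  cs : ℤ
  /-- linear in `t` -/
  ct : ℤ
  /-- square of `s` -/
  css : ℤ
  /-- square of `t` -/
  ctt : ℤ

/-- Value of a quadratic. -/
noncomputable def Quad.ev (q : Quad) (s t : ℝ) : ℝ :=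
  q.c0 + q.cs * s + q.ct * t + q.css * s ^ 2 + q.ctt * t ^ 2

/-- Absolute sum of a quadratic. -/
def Quad.abs (q : Quad) : ℕ :=
  q.c0.natAbs + q.cs.natAbs + q.ct.natAbs + q.css.natAbs + q.ctt.natAbs

theorem Quad.abs_ev_le (q : Quad) {s t : ℝ} (hs : |s| ≤ 1) (ht : |t| ≤ 1) :
    |q.ev s t| ≤ q.abs := by
  have h : q.ev s t = ev2 [[q.c0, q.ct, q.ctt], [q.cs], [q.css]] s t := by
    simp [Quad.ev, ev2, ev1]; ring
  rw [h]
  refine (abs_ev2_le _ hs ht).trans_eq ?_
  simp only [abs2, abs1, Quad.abs, Nat.cast_add, Nat.cast_zero]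
  ring

/-- Full product with a quadratic. -/
def mulQ (q : Quad) (p : List (List ℤ)) : List (List ℤ) :=
  axpy2 q.ctt (axpy2 q.css (axpy2 q.ct (axpy2 q.cs (p.map (fun r => r.map (q.c0 * ·))) (shS p))
    (shT p)) (shS (shS p))) (shT (shT p))

theorem ev2_mulQ (q : Quad) (p : List (List ℤ)) (s t : ℝ) :
    ev2 (mulQ q p) s t = q.ev s t * ev2 p s t := by
  simp only [mulQ, ev2_axpy, ev2_map, ev2_shS, ev2_shT, Quad.ev]
  ring

/-- Keep total degree at most `k`; second component: absolute sum of what is dropped. -/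
def trunc : ℕ → List (List ℤ) → List (List ℤ) × ℕ
  | _, [] => ([], 0)
  | 0, r :: L => ([r.take 1], abs1 (r.drop 1) + abs2 L)
  | k + 1, r :: L =>
    ((r.take (k + 2)) :: (trunc k L).1, abs1 (r.drop (k + 2)) + (trunc k L).2)

theorem ev1_take_drop (t : ℝ) : ∀ (n : ℕ) (l : List ℤ),
    ev1 l t = ev1 (l.take n) t + t ^ n * ev1 (l.drop n) t
  | 0, l => by simp [ev1]
  | n + 1, [] => by simp [ev1]
  | n + 1, a :: l => by simp [ev1, ev1_take_drop t n l, pow_succ]; ring

theorem abs_take_err (t : ℝ) (ht : |t| ≤ 1) (n : ℕ) (l : List ℤ) :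
    |ev1 l t - ev1 (l.take n) t| ≤ abs1 (l.drop n) := by
  rw [ev1_take_drop t n l, add_sub_cancel_left, abs_mul, abs_pow]
  exact (mul_le_mul (pow_le_one₀ (abs_nonneg t) ht) (abs_ev1_le _ ht) (abs_nonneg _)
    zero_le_one).trans_eq (one_mul _)

theorem trunc_err {s t : ℝ} (hs : |s| ≤ 1) (ht : |t| ≤ 1) :
    ∀ (k : ℕ) (L : List (List ℤ)), |ev2 L s t - ev2 (trunc k L).1 s t| ≤ (trunc k L).2
  | k, [] => by cases k <;> simp [trunc, ev2]
  | 0, r :: L => by
    simp only [trunc, ev2, Nat.cast_add, mul_zero, add_zero]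
    rw [show ev1 r t + s * ev2 L s t - ev1 (r.take 1) t
      = (ev1 r t - ev1 (r.take 1) t) + s * ev2 L s t by ring]
    refine (abs_add_le _ _).trans (add_le_add (abs_take_err t ht 1 r) ?_)
    rw [abs_mul]
    exact (mul_le_mul hs (abs_ev2_le L hs ht) (abs_nonneg _) zero_le_one).trans_eq (one_mul _)
  | k + 1, r :: L => by
    simp only [trunc, ev2, Nat.cast_add]
    rw [show ev1 r t + s * ev2 L s t - (ev1 (r.take (k + 2)) t + s * ev2 (trunc k L).1 s t)
      = (ev1 r t - ev1 (r.take (k + 2)) t) + s * (ev2 L s t - ev2 (trunc k L).1 s t) by ring]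
    refine (abs_add_le _ _).trans (add_le_add (abs_take_err t ht _ r) ?_)
    rw [abs_mul]
    exact (mul_le_mul hs (trunc_err hs ht k L) (abs_nonneg _) zero_le_one).trans_eq (one_mul _)

/-- Kept total degree. -/
def deg0 : ℕ := 9

/-- A polynomial model: coefficients and an error. -/
abbrev TM : Type := List (List ℤ) × ℕ

/-- `X` is modelled by `m` at `(s,t)`. -/
def TM.Ok (m : TM) (X s t : ℝ) : Prop := |X - ev2 m.1 s t| ≤ m.2

/-- Product with a quadratic. -/
def TM.mulQ (q : Quad) (m : TM) : TM :=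
  let p := trunc deg0 (Sos.mulQ q m.1)
  (p.1, m.2 * q.abs + p.2)

theorem TM.ok_mulQ {m : TM} {X s t : ℝ} (hs : |s| ≤ 1) (ht : |t| ≤ 1) (q : Quad)
    (h : TM.Ok m X s t) : TM.Ok (m.mulQ q) (q.ev s t * X) s t := by
  simp only [TM.Ok, TM.mulQ, Nat.cast_add, Nat.cast_mul] at *
  rw [show q.ev s t * X - ev2 (trunc deg0 (Sos.mulQ q m.1)).1 s t = q.ev s t * (X - ev2 m.1 s t)
    + (ev2 (Sos.mulQ q m.1) s t - ev2 (trunc deg0 (Sos.mulQ q m.1)).1 s t) by
      rw [ev2_mulQ]; ring]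
  refine (abs_add_le _ _).trans (add_le_add ?_ (trunc_err hs ht _ _))
  rw [abs_mul, mul_comm (m.2 : ℝ)]
  exact mul_le_mul (q.abs_ev_le hs ht) h (abs_nonneg _) (Nat.cast_nonneg _)

/-- Linear combination step. -/
def TM.axpy (c : ℤ) (a b : TM) : TM := (axpy2 c a.1 b.1, a.2 + c.natAbs * b.2)

theorem TM.ok_axpy {a b : TM} {X Y s t : ℝ} (c : ℤ) (ha : TM.Ok a X s t) (hb : TM.Ok b Y s t) :
    TM.Ok (TM.axpy c a b) (X + c * Y) s t := by
  simp only [TM.Ok, TM.axpy, Nat.cast_add, Nat.cast_mul, ev2_axpy] at *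
  rw [show X + c * Y - (ev2 a.1 s t + c * ev2 b.1 s t)
    = (X - ev2 a.1 s t) + c * (Y - ev2 b.1 s t) by ring]
  refine (abs_add_le _ _).trans (add_le_add ha ?_)
  rw [abs_mul, Nat.cast_natAbs, Int.cast_abs]
  exact mul_le_mul_of_nonneg_left hb (abs_nonneg _)

end Vale.Agent.P098.Exact.Sos
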