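import Vale.Agent.P098.Exact.Sos.Cert
import Vale.Agent.P098.Exact.Sos.Digits
import Vale.Agent.P098.Exact.Sos.TM

/-! Bernstein control values and the check of one certificate. -/

namespace Vale.Agent.P098.Exact.Sos

/-- Twelve times the Bernstein coefficients of powers on `[-1,1]`, by rows. -/
def bRow : ℕ → List ℤ
  | 0 => [12, -12, 12, -12, 12]
  | 1 => [12, -6, 0, 6, -12]
  | 2 => [12, 0, -4, 0, 12]
  | 3 => [12, 6, 0, -6, -12]
  | 4 => [12, 12, 12, 12, 12]
  | _ => []

/-- Entry of the conversion matrix. -/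
def bM (i k : ℕ) : ℤ := (bRow i).getD k 0

/-- Bernstein polynomials in `s ∈ [-1,1]`. -/
noncomputable def bB (s : ℝ) : ℕ → ℝ
  | 0 => ((1 - s) / 2) ^ 4
  | 1 => 4 * ((1 + s) / 2) * ((1 - s) / 2) ^ 3
  | 2 => 6 * ((1 + s) / 2) ^ 2 * ((1 - s) / 2) ^ 2
  | 3 => 4 * ((1 + s) / 2) ^ 3 * ((1 - s) / 2)
  | 4 => ((1 + s) / 2) ^ 4
  | _ => 0

theorem bB_nonneg {s : ℝ} (hs : |s| ≤ 1) (i : ℕ) : 0 ≤ bB s i := by
  have h1 : 0 ≤ (1 - s) / 2 := by linarith [(abs_le.1 hs).2]
  have h2 : 0 ≤ (1 + s) / 2 := by linarith [(abs_le.1 hs).1]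
  unfold bB
  split <;> positivity

theorem bB_sum (s : ℝ) : bB s 0 + bB s 1 + bB s 2 + bB s 3 + bB s 4 = 1 := by
  simp only [bB]; ring

theorem bern1 (s : ℝ) (p : ℕ → ℝ) :
    12 * ∑ k ∈ Finset.range 5, p k * s ^ k =
      ∑ i ∈ Finset.range 5, bB s i * ∑ k ∈ Finset.range 5, (bM i k : ℝ) * p k := by
  simp only [Finset.sum_range_succ, Finset.sum_range_zero, bB, bM, bRow, List.getD_cons_zero,
    List.getD_cons_succ]
  push_cast
  ring

/-- A five by five array. -/
def fits (c : List (List ℤ)) : Bool := decide (c.length ≤ 5) && c.all fun r => decide (r.length ≤ 5)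

theorem ev1_sum : ∀ (n : ℕ) (r : List ℤ) (t : ℝ), r.length ≤ n →
    ev1 r t = ∑ l ∈ Finset.range n, (r.getD l 0 : ℝ) * t ^ l
  | n, [], t, _ => by simp [ev1]
  | 0, a :: r, t, h => by simp at h
  | n + 1, a :: r, t, h => by
    rw [Finset.sum_range_succ']
    simp [ev1, ev1_sum n r t (by simpa using h), Finset.mul_sum, pow_succ]
    rw [add_comm]
    congr 1
    exact Finset.sum_congr rfl fun x _ => by ring

theorem ev2_sum : ∀ (n : ℕ) (c : List (List ℤ)) (s t : ℝ), c.length ≤ n →
    (∀ r ∈ c, r.length ≤ 5) →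
    ev2 c s t = ∑ k ∈ Finset.range n,
      (∑ l ∈ Finset.range 5, ((c.getD k []).getD l 0 : ℝ) * t ^ l) * s ^ k
  | n, [], s, t, _, _ => by simp [ev2]
  | 0, a :: c, s, t, h, _ => by simp at h
  | n + 1, a :: c, s, t, h, h5 => by
    rw [Finset.sum_range_succ']
    simp only [ev2, List.getD_cons_succ, List.getD_cons_zero, pow_zero, mul_one,
      ev2_sum n c s t (by simpa using h) (fun r hr => h5 r (by simp [hr])),
      ev1_sum 5 a t (h5 a (by simp)), Finset.mul_sum, pow_succ]
    rw [add_comm]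
    congr 1
    exact Finset.sum_congr rfl fun x _ => by ring

/-- Control value, scaled by `144`. -/
noncomputable def ctrl (i j : ℕ) (c : List (List ℤ)) : ℤ := fdot (bRow i) (c.map (fdot (bRow j)))

theorem fdot_bRow (i : ℕ) (hi : i < 5) (r : List ℤ) :
    fdot (bRow i) r = ∑ k ∈ Finset.range 5, bM i k * r.getD k 0 :=
  fdot_eq 5 (bRow i) r (by interval_cases i <;> decide)

theorem getD_map_fdot (u : List ℤ) (c : List (List ℤ)) (k : ℕ) :
    (c.map (fdot u)).getD k 0 = fdot u (c.getD k []) := by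
  have h : fdot u [] = 0 := by cases u <;> rfl
  rw [← h, List.getD_map]

theorem ctrl_eq (i j : ℕ) (hi : i < 5) (hj : j < 5) (c : List (List ℤ)) :
    ctrl i j c = ∑ k ∈ Finset.range 5, ∑ l ∈ Finset.range 5,
      bM i k * bM j l * (c.getD k []).getD l 0 := by
  simp only [ctrl, fdot_bRow i hi, getD_map_fdot, fdot_bRow j hj, Finset.mul_sum, mul_assoc]

theorem bern2 (c : List (List ℤ)) (hc : fits c = true) (s t : ℝ) :
    144 * ev2 c s t =
      ∑ i ∈ Finset.range 5, ∑ j ∈ Finset.range 5, bB s i * bB t j * (ctrl i j c : ℝ) := by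
  simp only [fits, Bool.and_eq_true, decide_eq_true_eq, List.all_eq_true] at hc
  rw [ev2_sum 5 c s t hc.1 hc.2]
  have h1 := bern1 s fun k => 12 * ∑ l ∈ Finset.range 5, ((c.getD k []).getD l 0 : ℝ) * t ^ l
  calc 144 * ∑ k ∈ Finset.range 5,
      (∑ l ∈ Finset.range 5, ((c.getD k []).getD l 0 : ℝ) * t ^ l) * s ^ k
      = 12 * ∑ k ∈ Finset.range 5,
          (12 * ∑ l ∈ Finset.range 5, ((c.getD k []).getD l 0 : ℝ) * t ^ l) * s ^ k := by
        rw [Finset.mul_sum, Finset.mul_sum]
        exact Finset.sum_congr rfl fun k _ => by ring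
    _ = _ := by
        rw [h1]
        refine Finset.sum_congr rfl fun i hi => ?_
        simp only [bern1 t, Finset.mul_sum, mul_assoc]
        rw [Finset.sum_comm]
        refine Finset.sum_congr rfl fun j hj => ?_
        simp only [ctrl, fdot_bRow i (Finset.mem_range.1 ‹_›), getD_map_fdot,
          fdot_bRow j (Finset.mem_range.1 ‹_›), Int.cast_sum, Int.cast_mul, Finset.mul_sum]
        exact Finset.sum_congr rfl fun k _ => Finset.sum_congr rfl fun m _ => by ring

/-- Is the monomial a pure square? -/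
def isSq (G : Gam) : Bool :=
  G.a == G.b && (List.range 5).all fun i => G.g.getD i 0 == 0

/-- Slot weight of a monomial at a coordinate. -/
def hit (G : Gam) (a : ℕ) : ℤ := (if G.a = a then 1 else 0) + (if G.b = a then 1 else 0)

/-- Twice the lower bound credited to coordinate `a` by one coefficient. -/
def credit (G : Gam) (r : ℤ) (a : ℕ) : ℤ :=
  if isSq G then hit G a * r else -(hit G a * |r|)

/-- Total credit at a coordinate. -/
def score (a : ℕ) : List Gam → List ℤ → ℤ
  | G :: Gs, r :: rs => credit G r a + score a Gs rs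
  | _, _ => 0

/-- A stored target: five by five coefficients and an error. -/
abbrev Tgt : Type := List (List ℤ) × ℕ

/-- Error load of a coordinate. -/
def eload (a : ℕ) : List Gam → List Tgt → ℕ
  | G :: Gs, c :: cs => (hit G a).natAbs * c.2 + eload a Gs cs
  | _, _ => 0

/-- Margin in units of the stored targets, at the coordinate `17`. -/
def gap (a : ℕ) : ℤ := if a = 17 then 1000 else 0

theorem abs_gam_le (G : Gam) (z v : ℕ → ℝ) (hv : ∀ k, k < 5 → |v k| ≤ 1) :
    |G.ev z v| ≤ (z G.a ^ 2 + z G.b ^ 2) / 2 := by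
  unfold Gam.ev
  rw [abs_mul]
  have h : |v 0 ^ G.g.getD 0 0 * v 1 ^ G.g.getD 1 0 * v 2 ^ G.g.getD 2 0 * v 3 ^ G.g.getD 3 0 *
      v 4 ^ G.g.getD 4 0| ≤ 1 := by
    simp only [abs_mul, abs_pow]
    have p := fun k (hk : k < 5) (e : ℕ) => pow_le_one₀ (n := e) (abs_nonneg _) (hv k hk)
    calc _ ≤ (1 : ℝ) * 1 * 1 * 1 * 1 := by gcongr <;> exact p _ (by norm_num) _
      _ = 1 := by norm_num
  have h2 : |z G.a * z G.b| ≤ (z G.a ^ 2 + z G.b ^ 2) / 2 := by
    rw [abs_le]
    constructor <;> nlinarith [sq_nonneg (z G.a - z G.b), sq_nonneg (z G.a + z G.b)]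
  calc _ ≤ |z G.a * z G.b| * 1 := mul_le_mul_of_nonneg_left h (abs_nonneg _)
    _ ≤ _ := by rwa [mul_one]

theorem sum_hit (G : Gam) (z : ℕ → ℝ) (n : ℕ) (ha : G.a < n) (hb : G.b < n) :
    ∑ a ∈ Finset.range n, (hit G a : ℝ) * z a ^ 2 = z G.a ^ 2 + z G.b ^ 2 := by
  simp [hit, add_mul, Finset.sum_add_distrib, Finset.sum_ite_eq, ha, hb]

theorem credit_le (G : Gam) (r : ℤ) (z v : ℕ → ℝ) (ha : G.a < 18) (hb : G.b < 18)
    (hv : ∀ k, k < 5 → |v k| ≤ 1) :
    ∑ a ∈ Finset.range 18, (credit G r a : ℝ) * z a ^ 2 ≤ 2 * ((r : ℝ) * G.ev z v) := by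
  unfold credit
  by_cases h : isSq G = true
  · simp only [h, if_true, Int.cast_mul]
    simp only [isSq, Bool.and_eq_true, beq_iff_eq, List.all_eq_true, List.mem_range] at h
    have hg : G.ev z v = z G.a ^ 2 := by
      simp only [Gam.ev, h.2 0 (by norm_num), h.2 1 (by norm_num), h.2 2 (by norm_num),
        h.2 3 (by norm_num), h.2 4 (by norm_num), pow_zero, mul_one, ← h.1, sq]
    have := sum_hit G z 18 ha hb
    rw [← h.1] at this
    rw [hg]
    simp only [mul_comm (hit G _ : ℝ) (r : ℝ), mul_assoc]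
    rw [← Finset.mul_sum, this]
    linarith
  · simp only [h, Bool.false_eq_true, if_false]
    have e : ∑ a ∈ Finset.range 18, ((-(hit G a * |r|) : ℤ) : ℝ) * z a ^ 2 =
        -(|(r : ℝ)| * ∑ a ∈ Finset.range 18, (hit G a : ℝ) * z a ^ 2) := by
      rw [Finset.mul_sum, ← Finset.sum_neg_distrib]
      exact Finset.sum_congr rfl fun x _ => by push_cast; ring
    rw [e, sum_hit G z 18 ha hb]
    have h1 := abs_gam_le G z v hv
    have h2 : |(r : ℝ) * G.ev z v| ≤ |(r : ℝ)| * ((z G.a ^ 2 + z G.b ^ 2) / 2) := by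
      rw [abs_mul]; exact mul_le_mul_of_nonneg_left h1 (abs_nonneg _)
    linarith [(abs_le.1 h2).1]

theorem hit_nonneg (G : Gam) (a : ℕ) : 0 ≤ hit G a := by unfold hit; split <;> split <;> norm_num

theorem eload_bound (z v : ℕ → ℝ) (hv : ∀ k, k < 5 → |v k| ≤ 1) : ∀ (Gs : List Gam) (cs : List Tgt)
    (X : List ℝ), (∀ G ∈ Gs, G.a < 18 ∧ G.b < 18) → cs.length = X.length →
    (∀ k, k < X.length → |X.getD k 0| ≤ (cs.getD k ([], 0)).2) →
    2 * |(List.zipWith (fun (G : Gam) x => x * G.ev z v) Gs X).sum| ≤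
      ∑ a ∈ Finset.range 18, (eload a Gs cs : ℝ) * z a ^ 2
  | [], cs, X, _, _, _ => by simp [eload]
  | G :: Gs, [], [], _, _, _ => by simp [eload]
  | G :: Gs, c :: cs, x :: X, hg, hl, hX => by
    have hG := hg G (by simp)
    have h0 := hX 0 (by simp)
    simp only [List.getD_cons_zero] at h0
    have ih := eload_bound z v hv Gs cs X (fun H hH => hg H (by simp [hH])) (by simpa using hl)
      (fun k hk => by simpa using hX (k + 1) (by simpa using hk))
    simp only [List.zipWith_cons_cons, List.sum_cons, eload, Nat.cast_add, Nat.cast_mul, add_mul,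
      Finset.sum_add_distrib]
    have e : ∀ a, (((hit G a).natAbs : ℕ) : ℝ) = (hit G a : ℝ) := fun a => by
      rw [Nat.cast_natAbs, abs_of_nonneg (hit_nonneg G a)]
    simp only [e, mul_comm (hit G _ : ℝ) (c.2 : ℝ), mul_assoc, ← Finset.mul_sum,
      sum_hit G z 18 hG.1 hG.2]
    have h1 := abs_add_le (x * G.ev z v) (List.zipWith (fun (G : Gam) x => x * G.ev z v) Gs X).sum
    have h2 : |x * G.ev z v| ≤ c.2 * ((z G.a ^ 2 + z G.b ^ 2) / 2) := by
      rw [abs_mul]
      exact mul_le_mul h0 (abs_gam_le G z v hv) (abs_nonneg _) (Nat.cast_nonneg _)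
    linarith

/-- Monomial-weighted sum of a list of reals. -/
noncomputable def gsumR (z v : ℕ → ℝ) : List Gam → List ℝ → ℝ
  | G :: Gs, x :: X => x * G.ev z v + gsumR z v Gs X
  | _, _ => 0

theorem gsumR_range (z v : ℕ → ℝ) : ∀ (Gs : List Gam) (f : ℕ → ℝ),
    gsumR z v Gs ((List.range Gs.length).map f) =
      ∑ k ∈ Finset.range Gs.length, f k * (Gs.getD k ⟨0, 0, []⟩).ev z v
  | [], f => by simp [gsumR]
  | G :: Gs, f => by
    rw [List.length_cons, List.range_succ_eq_map, List.map_cons, List.map_map, gsumR,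
      Finset.sum_range_succ', gsumR_range z v Gs]
    simp [add_comm]

theorem score_le (z v : ℕ → ℝ) (hv : ∀ k, k < 5 → |v k| ≤ 1) : ∀ (Gs : List Gam) (rs : List ℤ),
    (∀ G ∈ Gs, G.a < 18 ∧ G.b < 18) → rs.length = Gs.length →
    ∑ a ∈ Finset.range 18, (score a Gs rs : ℝ) * z a ^ 2 ≤
      2 * gsumR z v Gs (rs.map fun x : ℤ => (x : ℝ))
  | [], rs, _, hl => by
    rw [List.length_nil, List.length_eq_zero_iff] at hl
    simp [hl, score, gsumR]
  | G :: Gs, [], _, hl => by simp at hl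
  | G :: Gs, r :: rs, hg, hl => by
    have hG := hg G (by simp)
    have ih := score_le z v hv Gs rs (fun H hH => hg H (by simp [hH])) (by simpa using hl)
    simp only [score, Int.cast_add, add_mul, Finset.sum_add_distrib, List.map_cons, gsumR]
    have := credit_le G r z v hG.1 hG.2 hv
    linarith

/-- Positions of squares, or of the other monomials, hitting a coordinate, with multiplicity. -/
def posFrom (sq : Bool) (a : ℕ) : List Gam → ℕ → List ℕ
  | [], _ => []
  | G :: Gs, o =>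
    (if isSq G = sq then List.replicate (hit G a).natAbs o else []) ++ posFrom sq a Gs (o + 1)

/-- Sum of a function over positions. -/
noncomputable def posSum (g : ℕ → ℤ) (L : List ℕ) : ℤ :=
  List.rec (motive := fun _ => ℤ) (Int.ofNat 0) (fun k _ ih => Int.add (g k) ih) L

theorem posSum_eq (g : ℕ → ℤ) : ∀ L, posSum g L = (L.map g).sum
  | [] => rfl
  | k :: L => by
    rw [List.map_cons, List.sum_cons, ← posSum_eq g L]
    rfl

theorem score_pos (a : ℕ) (g : ℕ → ℤ) : ∀ (Gs : List Gam) (o : ℕ),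
    score a Gs ((List.range Gs.length).map fun k => g (o + k)) =
      posSum g (posFrom true a Gs o) - posSum (fun k => |g k|) (posFrom false a Gs o)
  | [], o => by simp [score, posFrom, posSum_eq]
  | G :: Gs, o => by
    have ih := score_pos a g Gs (o + 1)
    have hh := abs_of_nonneg (hit_nonneg G a)
    rw [List.length_cons, List.range_succ_eq_map, List.map_cons, List.map_map]
    simp only [score, Function.comp_def, posFrom, posSum_eq, List.map_append, List.sum_append,
      Nat.add_zero] at ih ⊢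
    simp only [Nat.add_assoc, Nat.add_comm 1] at ih
    rw [ih]
    cases h : isSq G <;>
      simp [credit, h, hh] <;> ring

/-- Check of all coordinates for one residual, given by its offset packed number. -/
noncomputable def scoresOK (N : ℕ) (pos : List (List ℕ × List ℕ)) (el : List ℕ) : Bool :=
  (List.range 18).all fun a => decide (144 * (el.getD a 0 : ℤ) + gap a ≤
    posSum (dg 96 N) (pos.getD a ([], [])).1 -
      posSum (fun k => |dg 96 N k|) (pos.getD a ([], [])).2)

/-- Signed value of an offset packed number. -/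
def svalF (w n N : ℕ) : ℤ := Int.sub (Int.ofNat N) (Int.ofNat (Nat.mul (half w) (onesF w n)))

/-- Check of one certificate; `Ps` holds the packed targets, `el` the error loads. -/
noncomputable def certOK (n : ℕ) (Bs : List Block) (pos : List (List ℕ × List ℕ))
    (Ps : List (List ℤ)) (el : List ℕ) (i j : ℕ) (Ns : List ℕ) : Bool :=
  scoresOK (offs 96 n (Int.sub (ctrl i j Ps) (fAll Bs Ns))) pos el

theorem certOK_sound (n : ℕ) (gam : List (List Gam)) (gl : List Gam) (hgl : gl.length = n)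
    (hsame : ∀ k, k < n → sameGam (gamAt gam k) (gl.getD k ⟨0, 0, []⟩) = true)
    (hrange : ∀ G ∈ gl, G.a < 18 ∧ G.b < 18) (Bs : List Block)
    (hBs : Bs.all (fun b => blockOK n gam b.K b.bas b.pairs && decide (b.bas.length ≤ 32)) = true)
    (hw8 : (Bs.map fun b => blockWeight b.pairs).sum ≤ 2 ^ 20)
    (pos : List (List ℕ × List ℕ))
    (hpos : pos = (List.range 18).map fun a => (posFrom true a gl 0, posFrom false a gl 0))
    (Ps : List (List ℤ)) (c : ℕ → List (List ℤ))
    (hP : ∀ k l, (Ps.getD k []).getD l 0 = pk 96 n fun m => ((c m).getD k []).getD l 0)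
    (hc : ∀ m k l, |((c m).getD k []).getD l 0| ≤ 2 ^ 70)
    (el : List ℕ) (i j : ℕ) (hi : i < 5) (hj : j < 5) (Ns : List ℕ)
    (h : certOK n Bs pos Ps el i j Ns = true)
    (z v : ℕ → ℝ) (hv : ∀ k, k < 5 → |v k| ≤ 1)
    (hball : v 0 ^ 2 + v 1 ^ 2 + v 2 ^ 2 + v 3 ^ 2 + v 4 ^ 2 ≤ 1) (hw : 0 ≤ v 4)
    (hab : 0 ≤ z 16 * z 17) :
    ∑ a ∈ Finset.range 18, ((144 * (el.getD a 0 : ℤ) + gap a : ℤ) : ℝ) * z a ^ 2 ≤
      2 * gsumR z v gl ((List.range n).map fun m => (ctrl i j (c m) : ℝ)) := by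
  subst hgl
  obtain ⟨V, hV, f, hf1, hf2, hf3⟩ := fAll_spec gl.length gam z v hball hw hab Bs Ns hBs
  set r : ℕ → ℤ := fun m => ctrl i j (c m) - f m with hr
  have hZ : Int.sub (ctrl i j Ps) (fAll Bs Ns) = pk 96 gl.length r := by
    show ctrl i j Ps - fAll Bs Ns = _
    rw [hf1, ctrl_eq i j hi hj]
    simp only [hP, pk, hr, ctrl_eq i j hi hj, sub_mul, Finset.sum_sub_distrib, Finset.sum_mul,
      Finset.mul_sum]
    congr 1
    conv_rhs => rw [Finset.sum_comm]
    refine Finset.sum_congr rfl fun k _ => ?_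
    conv_rhs => rw [Finset.sum_comm]
    exact Finset.sum_congr rfl fun l _ => Finset.sum_congr rfl fun m _ => by ring
  have hbM : ∀ p q, |bM p q| ≤ 12 := by
    intro p q
    unfold bM
    rcases p with _ | _ | _ | _ | _ | p <;> rcases q with _ | _ | _ | _ | _ | q <;> simp [bRow]
  have hrb : ∀ m, |r m| < half 96 := by
    intro m
    have h1 : |ctrl i j (c m)| ≤ 5 * (5 * (12 * 12 * 2 ^ 70)) := by
      rw [ctrl_eq i j hi hj]
      refine (Finset.abs_sum_le_sum_abs _ _).trans ?_
      refine (Finset.sum_le_card_nsmul _ _ (5 * (12 * 12 * 2 ^ 70)) fun k _ => ?_).trans (by simp)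
      refine (Finset.abs_sum_le_sum_abs _ _).trans ?_
      refine (Finset.sum_le_card_nsmul _ _ (12 * 12 * 2 ^ 70) fun l _ => ?_).trans (by simp)
      rw [abs_mul, abs_mul]
      exact mul_le_mul (mul_le_mul (hbM i k) (hbM j l) (abs_nonneg _) (by norm_num)) (hc m k l)
        (abs_nonneg _) (by norm_num)
    have h2 : |f m| ≤ 2 ^ 64 * 2 ^ 20 := (hf2 m).trans (by exact_mod_cast Nat.mul_le_mul_left _ hw8)
    have h3 := abs_sub (ctrl i j (c m)) (f m)
    have h4 : ((half 96 : ℕ) : ℤ) = 2 ^ 95 := by norm_num [half]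
    norm_num at h1 h2 h4
    simp only [hr]
    omega
  have hdg : ∀ k, k < gl.length → dg 96 (offs 96 gl.length (pk 96 gl.length r)) k = r k :=
    fun k hk => dg_offs 96 (by norm_num) _ r (fun m _ => hrb m) k hk
  simp only [certOK, scoresOK, hZ, List.all_eq_true, List.mem_range, decide_eq_true_eq] at h
  set N := offs 96 gl.length (pk 96 gl.length r)
  have h1 : ∑ a ∈ Finset.range 18, ((144 * (el.getD a 0 : ℤ) + gap a : ℤ) : ℝ) * z a ^ 2 ≤
      ∑ a ∈ Finset.range 18,
        (score a gl ((List.range gl.length).map fun k => dg 96 N k) : ℝ) * z a ^ 2 := by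
    refine Finset.sum_le_sum fun a ha => mul_le_mul_of_nonneg_right ?_ (sq_nonneg _)
    have ha' : a < ((List.range 18).map fun a => (posFrom true a gl 0, posFrom false a gl 0)).length := by
      simpa using Finset.mem_range.1 ha
    have e := h a (Finset.mem_range.1 ha)
    rw [hpos, List.getD_eq_getElem _ _ ha', List.getElem_map, List.getElem_range] at e
    have es := score_pos a (dg 96 N) gl 0
    simp only [Nat.zero_add] at es
    exact Int.cast_le.2 (by rw [es]; exact e)
  refine h1.trans ((score_le z v hv gl _ hrange (by simp)).trans ?_)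
  rw [List.map_map, gsumR_range, gsumR_range]
  have e : gv gl.length gam z v f = ∑ k ∈ Finset.range gl.length,
      (f k : ℝ) * (gl.getD k ⟨0, 0, []⟩).ev z v := Finset.sum_congr rfl fun k hk => by
    rw [gw, sameGam_sound (hsame k (Finset.mem_range.1 hk))]
  have e2 : ∀ k ∈ Finset.range gl.length,
      ((fun x : ℤ => (x : ℝ)) ∘ fun k => dg 96 N k) k * (gl.getD k ⟨0, 0, []⟩).ev z v =
        (ctrl i j (c k) : ℝ) * (gl.getD k ⟨0, 0, []⟩).ev z v -
          (f k : ℝ) * (gl.getD k ⟨0, 0, []⟩).ev z v := fun k hk => by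
    simp [hdg k (Finset.mem_range.1 hk), hr, sub_mul]
  rw [Finset.sum_congr rfl e2, Finset.sum_sub_distrib, ← e, hf3]
  linarith

end Vale.Agent.P098.Exact.Sos
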