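import Vale.Agent.P098.Exact.Sos.GenHom

/-! The interior form as a computed polynomial. -/

namespace Vale.Agent.P098.Exact.Sos

/-- Polynomial operations. -/
def polyOps : Ops HP := ⟨HP.c, HP.add, HP.mul⟩

/-- The interior form in the variables `z, v, l`. -/
def QP : HP := QG polyOps HP.var

theorem ev_QP (x : List ℝ) : QP.ev x = QG realOps fun n => x.getD n 0 := by
  have H : OpsHom polyOps realOps fun q : HP => q.ev x :=
    ⟨fun z => by simp [polyOps, realOps, HP.ev], fun a b => HP.ev_add a b x,
      fun a b => HP.ev_mul a b x⟩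
  rw [QP, hom_QG H HP.var]
  simp only [HP.ev_var]

end Vale.Agent.P098.Exact.Sos
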