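import Vale.Agent.P098.Exact.Sos.Ev
import Vale.Agent.P098.Exact.Sos.RealForm

/-! Polynomial operations through bare recursors, and the interior form in pieces. -/

namespace Vale.Agent.P098.Exact.Sos

namespace HP

/-- Is this the constant zero? -/
noncomputable def isz (q : HP) : Bool :=
  HP.rec (motive := fun _ => Bool) (fun b => Nat.beq (Int.natAbs b) 0) (fun _ _ _ _ => false) q

theorem ev_isz : ∀ (q : HP) (x : List ℝ), isz q = true → q.ev x = 0
  | .c b, x, h => by
    have : b.natAbs = 0 := Nat.eq_of_beq_eq_true h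
    simp [ev, Int.natAbs_eq_zero.1 this]
  | .n _ _, _, h => absurd (show false = true from h) (by simp)

/-- Node constructor. -/
noncomputable def fmk (h t : HP) : HP :=
  HP.rec (motive := fun _ => HP) (fun a => Bool.rec (HP.n h t) (HP.c a) (isz t))
    (fun _ _ _ _ => HP.n h t) h

theorem ev_fmk (h t : HP) (x : List ℝ) : (fmk h t).ev x = h.ev x.tail + x.headD 0 * t.ev x := by
  cases h with
  | n a b => rfl
  | c a =>
    show (Bool.rec (HP.n (.c a) t) (HP.c a) (isz t) : HP).ev x = _
    cases e : isz t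
    · rfl
    · simp [ev, ev_isz t x e]

/-- Constant added. -/
noncomputable def faddC (a : ℤ) (p : HP) : HP :=
  HP.rec (motive := fun _ => HP) (fun b => HP.c (Int.add a b)) (fun _ t ih _ => fmk ih t) p

theorem ev_faddC (a : ℤ) : ∀ (p : HP) (x : List ℝ), (faddC a p).ev x = a + p.ev x
  | .c b, x => by show ((Int.add a b : ℤ) : ℝ) = _; simp [ev, Int.add_def]
  | .n h t, x => by
    rw [show faddC a (.n h t) = fmk (faddC a h) t from rfl, ev_fmk, ev_faddC a h]
    simp [ev]; ring

/-- Sum. -/
noncomputable def fadd (p : HP) : HP → HP :=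
  HP.rec (motive := fun _ => HP → HP) (fun a q => faddC a q)
    (fun h t ihh iht q => HP.rec (motive := fun _ => HP) (fun b => fmk (faddC b h) t)
      (fun h' t' _ _ => fmk (ihh h') (iht t')) q) p

theorem ev_fadd : ∀ (p q : HP) (x : List ℝ), (fadd p q).ev x = p.ev x + q.ev x
  | .c a, q, x => by rw [show fadd (.c a) q = faddC a q from rfl, ev_faddC]; rfl
  | .n h t, .c b, x => by
    rw [show fadd (.n h t) (.c b) = fmk (faddC b h) t from rfl, ev_fmk, ev_faddC]
    simp [ev]; ring
  | .n h t, .n h' t', x => by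
    rw [show fadd (.n h t) (.n h' t') = fmk (fadd h h') (fadd t t') from rfl, ev_fmk,
      ev_fadd h h', ev_fadd t t']
    simp [ev]; ring

/-- Integer multiple. -/
noncomputable def fsmul (a : ℤ) (p : HP) : HP :=
  HP.rec (motive := fun _ => HP) (fun b => HP.c (Int.mul a b)) (fun _ _ x y => fmk x y) p

theorem ev_fsmul (a : ℤ) : ∀ (p : HP) (x : List ℝ), (fsmul a p).ev x = a * p.ev x
  | .c b, x => by show ((Int.mul a b : ℤ) : ℝ) = _; simp [ev, Int.mul_def]
  | .n h t, x => by
    rw [show fsmul a (.n h t) = fmk (fsmul a h) (fsmul a t) from rfl, ev_fmk, ev_fsmul a h,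
      ev_fsmul a t]
    simp [ev]; ring

/-- Apply a multiplier to the coefficients of the first variable. -/
noncomputable def flift (m : HP → HP) (p : HP) : HP :=
  HP.rec (motive := fun _ => HP) (fun b => fmk (m (HP.c b)) (HP.c (Int.ofNat 0)))
    (fun h _ _ y => fmk (m h) y) p

theorem ev_flift (m : HP → HP) (a : List ℝ → ℝ) (hm : ∀ q x, (m q).ev x = a x * q.ev x) :
    ∀ (p : HP) (x : List ℝ), (flift m p).ev x = a x.tail * p.ev x
  | .c b, x => by
    rw [show flift m (.c b) = fmk (m (.c b)) (.c (Int.ofNat 0)) from rfl, ev_fmk, hm]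
    simp [ev, Int.ofNat_eq_natCast]
  | .n h t, x => by
    rw [show flift m (.n h t) = fmk (m h) (flift m t) from rfl, ev_fmk, hm, ev_flift m a hm t]
    simp [ev]; ring

/-- Product. -/
noncomputable def fmul (p : HP) : HP → HP :=
  HP.rec (motive := fun _ => HP → HP)
    (fun a q => Bool.rec (fsmul a q) (HP.c (Int.ofNat 0)) (Nat.beq (Int.natAbs a) 0))
    (fun _ _ ihh iht q => Bool.rec (fadd (flift ihh q) (fmk (HP.c (Int.ofNat 0)) (iht q)))
      (HP.c (Int.ofNat 0)) (isz q)) p

theorem ev_fmul : ∀ (p q : HP) (x : List ℝ), (fmul p q).ev x = p.ev x * q.ev x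
  | .c a, q, x => by
    show (Bool.rec (fsmul a q) (HP.c (Int.ofNat 0)) (Nat.beq (Int.natAbs a) 0) : HP).ev x = _
    cases e : Nat.beq (Int.natAbs a) 0
    · exact ev_fsmul a q x
    · simp [ev, Int.natAbs_eq_zero.1 (Nat.eq_of_beq_eq_true e)]
  | .n h t, q, x => by
    show (Bool.rec (fadd (flift (fmul h) q) (fmk (HP.c (Int.ofNat 0)) (fmul t q)))
      (HP.c (Int.ofNat 0)) (isz q) : HP).ev x = _
    cases e : isz q
    · show (fadd (flift (fmul h) q) (fmk (HP.c (Int.ofNat 0)) (fmul t q))).ev x = _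
      rw [ev_fadd, ev_flift (fmul h) (fun y => h.ev y) (fun q y => ev_fmul h q y), ev_fmk,
        ev_fmul t q]
      simp [ev, Int.ofNat_eq_natCast]
      ring
    · simp [ev, ev_isz q x e]

end HP

/-- Fast polynomial operations. -/
noncomputable def fastOps : Ops HP := ⟨HP.c, HP.fadd, HP.fmul⟩

variable {R : Type} (o : Ops R)

/-- The part of one direction. -/
def pieceG (x : ℕ → R) (k : Fin 5) : R :=
  o.add (sumL o (itable.map fun t => dtermG o t (jetG o x) (qdirG o x k)))
    (o.mul (o.cst (-44944)) (o.mul (dsG o (jetG o x) (qdirG o x k))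
      (dsG o (jetG o x) (qdirG o x k))))

/-- The part of the Laplacian. -/
def lapG (x : ℕ → R) : R :=
  o.mul (o.mul (x 17) (x 17))
    (o.add (sumL o (itable.map fun t => termG o t (jetG o x) (ljetG o x))) (o.cst (-1440000)))

theorem QG_eq (x : ℕ → R) : QG o x = o.add (sum5 o (pieceG o x)) (lapG o x) := rfl

variable {S : Type} {p : Ops S} {f : R → S}

theorem hom_pieceG (H : OpsHom o p f) (x : ℕ → R) (k : Fin 5) :
    f (pieceG o x k) = pieceG p (fun n => f (x n)) k := by
  simp only [pieceG, H.add, H.mul, H.cst, hom_sumL H, List.map_map, Function.comp_def,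
    dtermG, hom_valG H, hom_dvalG H, hom_dsG H, hom_monG H, hom_dmonG H, hom_jetG H, hom_qdirG H]

theorem hom_lapG (H : OpsHom o p f) (x : ℕ → R) :
    f (lapG o x) = lapG p (fun n => f (x n)) := by
  simp only [lapG, H.add, H.mul, H.cst, hom_sumL H, List.map_map, Function.comp_def,
    termG, hom_valG H, hom_monG H, hom_jetG H, hom_ljetG H]

theorem ev_fast (x : List ℝ) : OpsHom fastOps realOps fun q : HP => q.ev x :=
  ⟨fun z => by simp [fastOps, realOps, HP.ev], fun a b => HP.ev_fadd a b x,
    fun a b => HP.ev_fmul a b x⟩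

theorem ev_piece (x : List ℝ) (k : Fin 5) :
    (pieceG fastOps HP.var k).ev x = pieceG realOps (fun n => x.getD n 0) k := by
  rw [hom_pieceG fastOps (ev_fast x)]
  simp only [HP.ev_var]

theorem ev_lap (x : List ℝ) :
    (lapG fastOps HP.var).ev x = lapG realOps fun n => x.getD n 0 := by
  rw [hom_lapG fastOps (ev_fast x)]
  simp only [HP.ev_var]

end Vale.Agent.P098.Exact.Sos
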