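import Mathlib

/-! Sparse integer polynomials in Horner form, computable in the kernel. -/

namespace Vale.Agent.P098.Exact.Sos

/-- Polynomials: `c z` is a constant, `n h t` is `h + x * t` with `x` the variable of the level and
`h` a polynomial in the later variables. -/
inductive HP
  | c (z : ℤ)
  | n (h t : HP)

namespace HP

/-- Value at a list of reals (missing variables are zero). -/
noncomputable def ev : HP → List ℝ → ℝ
  | .c z, _ => z
  | .n h t, x => ev h x.tail + x.headD 0 * ev t x

/-- Node constructor that removes redundant nodes. -/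
def mk : HP → HP → HP
  | .c a, .c 0 => .c a
  | h, t => .n h t

theorem ev_mk (h t : HP) (x : List ℝ) : (mk h t).ev x = h.ev x.tail + x.headD 0 * t.ev x := by
  unfold mk
  split <;> simp [ev]

/-- Constant added. -/
def addC (a : ℤ) : HP → HP
  | .c b => .c (a + b)
  | .n h t => mk (addC a h) t

theorem ev_addC (a : ℤ) : ∀ (p : HP) (x : List ℝ), (addC a p).ev x = a + p.ev x
  | .c b, x => by simp [addC, ev]
  | .n h t, x => by simp [addC, ev_mk, ev, ev_addC a h]; ring

/-- Sum. -/
def add : HP → HP → HP
  | .c a, q => addC a q
  | .n h t, q =>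
    match q with
    | .c b => mk (addC b h) t
    | .n h' t' => mk (add h h') (add t t')

theorem ev_add : ∀ (p q : HP) (x : List ℝ), (add p q).ev x = p.ev x + q.ev x
  | .c a, q, x => by simp [add, ev_addC, ev]
  | .n h t, .c b, x => by simp [add, ev_mk, ev, ev_addC]; ring
  | .n h t, .n h' t', x => by simp [add, ev_mk, ev, ev_add h h', ev_add t t']; ring

/-- Integer multiple. -/
def smul (a : ℤ) : HP → HP
  | .c b => .c (a * b)
  | .n h t => mk (smul a h) (smul a t)

theorem ev_smul (a : ℤ) : ∀ (p : HP) (x : List ℝ), (smul a p).ev x = a * p.ev x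
  | .c b, x => by simp [smul, ev]
  | .n h t, x => by simp [smul, ev_mk, ev, ev_smul a h, ev_smul a t]; ring

/-- Multiply the coefficients of the first variable by a multiplier `m`; `one` is its value. -/
def lift (m : HP → HP) : HP → HP
  | .c b => mk (m (.c b)) (.c 0)
  | .n h t => mk (m h) (lift m t)

theorem ev_lift (m : HP → HP) (a : List ℝ → ℝ) (hm : ∀ q x, (m q).ev x = a x * q.ev x) :
    ∀ (p : HP) (x : List ℝ), (lift m p).ev x = a x.tail * p.ev x
  | .c b, x => by simp [lift, ev_mk, ev, hm]
  | .n h t, x => by simp [lift, ev_mk, ev, hm, ev_lift m a hm t]; ring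

/-- Product. -/
def mul : HP → HP → HP
  | .c a, q =>
    match a with
    | 0 => .c 0
    | _ => smul a q
  | .n h t, q =>
    match q with
    | .c 0 => .c 0
    | _ => add (lift (mul h) q) (mk (.c 0) (mul t q))

theorem ev_mul : ∀ (p q : HP) (x : List ℝ), (mul p q).ev x = p.ev x * q.ev x
  | .c a, q, x => by
    unfold mul
    split <;> simp_all [ev, ev_smul]
  | .n h t, q, x => by
    unfold mul
    split
    · simp [ev]
    · rw [ev_add, ev_lift (mul h) (fun y => h.ev y) (fun q y => ev_mul h q y), ev_mk,
        ev_mul t q]
      simp [ev]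
      ring

/-- The `k`-th variable. -/
def var : ℕ → HP
  | 0 => .n (.c 0) (.c 1)
  | k + 1 => .n (var k) (.c 0)

theorem ev_var : ∀ (k : ℕ) (x : List ℝ), (var k).ev x = x.getD k 0
  | 0, x => by cases x <;> simp [var, ev]
  | k + 1, x => by
    cases x with
    | nil => simp [var, ev, ev_var k]
    | cons a l => simp [var, ev, ev_var k l]

/-- Monomials: coefficient and exponents, in increasing variable order. -/
def flat : HP → List (ℤ × List ℕ)
  | .c z =>
    match z with
    | 0 => []
    | _ => [(z, [])]
  | .n h t => (flat h).map (fun p => (p.1, 0 :: p.2)) ++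
      (flat t).map (fun p => (p.1, (p.2.headD 0 + 1) :: p.2.tail))

/-- Value of a monomial. -/
noncomputable def evMon : List ℕ → List ℝ → ℝ
  | [], _ => 1
  | e :: l, x => x.headD 0 ^ e * evMon l x.tail

/-- Value of a monomial list. -/
noncomputable def evFlat (L : List (ℤ × List ℕ)) (x : List ℝ) : ℝ :=
  (L.map fun p => (p.1 : ℝ) * evMon p.2 x).sum

theorem ev_flat : ∀ (p : HP) (x : List ℝ), evFlat p.flat x = p.ev x
  | .c z, x => by
    unfold flat
    split <;> simp_all [evFlat, evMon, ev]
  | .n h t, x => by
    have e1 := ev_flat h x.tail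
    have e2 := ev_flat t x
    simp only [evFlat] at e1 e2
    simp only [evFlat, flat, List.map_append, List.map_map, List.sum_append, ev, ← e1, ← e2,
      ← List.sum_map_mul_left]
    congr 1
    · congr 1
      refine List.map_congr_left fun q _ => ?_
      simp [evMon]
    · congr 1
      refine List.map_congr_left fun q _ => ?_
      rcases q with ⟨z, l⟩
      cases l with
      | nil => simp [evMon]; ring
      | cons e l => simp [evMon, pow_succ]; ring

end HP

end Vale.Agent.P098.Exact.Sos
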