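import Vale.Agent.P098.Exact.Reduce
import Vale.Agent.P098.Exact.D5.Table
import Vale.Agent.P098.Exact.Sos.Poly

/-! The interior form of the dimension five table over any semiring, computable on polynomials. -/

noncomputable section

namespace Vale.Agent.P098.Exact.Sos

/-- Operations of a target ring, given by data. -/
structure Ops (R : Type) where
  /-- integer constants -/
  cst : ℤ → R
  /-- sum -/
  add : R → R → R
  /-- product -/
  mul : R → R → R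

/-- Jets over a target. -/
abbrev JetG (R : Type) : Type := (Fin 5 → Fin 5 → R) × (Fin 5 → R) × R

variable {R : Type} (o : Ops R)

/-- Five term sum. -/
def sum5 (f : Fin 5 → R) : R := o.add (o.add (o.add (o.add (f 0) (f 1)) (f 2)) (f 3)) (f 4)

/-- Powers. -/
def pw (x : R) : ℕ → R
  | 0 => o.cst 1
  | k + 1 => o.mul (pw x k) x

/-- Generic value of a form. -/
def valG : Form → JetG R → JetG R → R
  | .a1, j, q => sum5 o fun i => sum5 o fun k => o.mul (j.1 i k) (q.1 k i)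
  | .a2, j, q => sum5 o fun i => sum5 o fun k => sum5 o fun l =>
      o.mul (o.mul (j.1 i l) (j.1 l k)) (q.1 k i)
  | .s0, j, q => sum5 o fun i => sum5 o fun k => o.mul (o.mul (j.2.1 i) (q.1 i k)) (j.2.1 k)
  | .s1, j, q => sum5 o fun i => sum5 o fun k => sum5 o fun l =>
      o.mul (o.mul (o.mul (j.2.1 i) (j.1 i l)) (q.1 l k)) (j.2.1 k)
  | .s2, j, q => sum5 o fun i => sum5 o fun k => sum5 o fun l => sum5 o fun m =>
      o.mul (o.mul (o.mul (o.mul (j.2.1 i) (j.1 i l)) (j.1 l m)) (q.1 m k)) (j.2.1 k)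
  | .s11, j, q => sum5 o fun i => sum5 o fun k => sum5 o fun l => sum5 o fun m =>
      o.mul (o.mul (o.mul (o.mul (j.2.1 i) (j.1 i l)) (q.1 l m)) (j.1 m k)) (j.2.1 k)
  | .u0, j, q => sum5 o fun i => o.mul (j.2.1 i) (q.2.1 i)
  | .u1, j, q => sum5 o fun i => sum5 o fun k => o.mul (o.mul (j.1 i k) (j.2.1 k)) (q.2.1 i)
  | .u2, j, q => sum5 o fun i => sum5 o fun k => sum5 o fun l =>
      o.mul (o.mul (o.mul (j.1 i l) (j.1 l k)) (j.2.1 k)) (q.2.1 i)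
  | .dw, _, q => q.2.2

/-- Generic derivative of a form. -/
def dvalG : Form → JetG R → JetG R → JetG R → R
  | .a1, _, h, q => sum5 o fun i => sum5 o fun k => o.mul (h.1 i k) (q.1 k i)
  | .a2, j, h, q => sum5 o fun i => sum5 o fun k => sum5 o fun l =>
      o.mul (o.add (o.mul (h.1 i l) (j.1 l k)) (o.mul (j.1 i l) (h.1 l k))) (q.1 k i)
  | .s0, j, h, q => sum5 o fun i => sum5 o fun k =>
      o.mul (o.add (o.mul (h.2.1 i) (j.2.1 k)) (o.mul (j.2.1 i) (h.2.1 k))) (q.1 i k)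
  | .s1, j, h, q => sum5 o fun i => sum5 o fun k => sum5 o fun l =>
      o.mul (o.add (o.add (o.mul (o.mul (h.2.1 i) (j.1 i l)) (j.2.1 k))
        (o.mul (o.mul (j.2.1 i) (h.1 i l)) (j.2.1 k)))
        (o.mul (o.mul (j.2.1 i) (j.1 i l)) (h.2.1 k))) (q.1 l k)
  | .s2, j, h, q => sum5 o fun i => sum5 o fun k => sum5 o fun l => sum5 o fun m =>
      o.mul (o.add (o.add (o.add
        (o.mul (o.mul (o.mul (h.2.1 i) (j.1 i l)) (j.1 l m)) (j.2.1 k))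
        (o.mul (o.mul (o.mul (j.2.1 i) (h.1 i l)) (j.1 l m)) (j.2.1 k)))
        (o.mul (o.mul (o.mul (j.2.1 i) (j.1 i l)) (h.1 l m)) (j.2.1 k)))
        (o.mul (o.mul (o.mul (j.2.1 i) (j.1 i l)) (j.1 l m)) (h.2.1 k))) (q.1 m k)
  | .s11, j, h, q => sum5 o fun i => sum5 o fun k => sum5 o fun l => sum5 o fun m =>
      o.mul (o.add (o.add (o.add
        (o.mul (o.mul (o.mul (h.2.1 i) (j.1 i l)) (j.1 m k)) (j.2.1 k))
        (o.mul (o.mul (o.mul (j.2.1 i) (h.1 i l)) (j.1 m k)) (j.2.1 k)))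
        (o.mul (o.mul (o.mul (j.2.1 i) (j.1 i l)) (h.1 m k)) (j.2.1 k)))
        (o.mul (o.mul (o.mul (j.2.1 i) (j.1 i l)) (j.1 m k)) (h.2.1 k))) (q.1 l m)
  | .u0, _, h, q => sum5 o fun i => o.mul (h.2.1 i) (q.2.1 i)
  | .u1, j, h, q => sum5 o fun i => sum5 o fun k =>
      o.mul (o.add (o.mul (h.1 i k) (j.2.1 k)) (o.mul (j.1 i k) (h.2.1 k))) (q.2.1 i)
  | .u2, j, h, q => sum5 o fun i => sum5 o fun k => sum5 o fun l =>
      o.mul (o.add (o.add (o.mul (o.mul (h.1 i l) (j.1 l k)) (j.2.1 k))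
        (o.mul (o.mul (j.1 i l) (h.1 l k)) (j.2.1 k)))
        (o.mul (o.mul (j.1 i l) (j.1 l k)) (h.2.1 k))) (q.2.1 i)
  | .dw, _, _, _ => o.cst 0

/-- Derivative of the squared norm. -/
def dsG (j h : JetG R) : R :=
  sum5 o fun i => sum5 o fun k => o.mul (o.mul (o.cst 2) (j.1 i k)) (h.1 i k)

/-- The invariants. -/
def t3G (j : JetG R) : R :=
  sum5 o fun i => sum5 o fun k => sum5 o fun l => o.mul (o.mul (j.1 i k) (j.1 k l)) (j.1 l i)

/-- Derivative of the cubic trace. -/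
def dt3G (j h : JetG R) : R :=
  sum5 o fun i => sum5 o fun k => sum5 o fun l =>
    o.add (o.add (o.mul (o.mul (h.1 i k) (j.1 k l)) (j.1 l i))
      (o.mul (o.mul (j.1 i k) (h.1 k l)) (j.1 l i)))
      (o.mul (o.mul (j.1 i k) (j.1 k l)) (h.1 l i))

/-- Squared gradient. -/
def p0G (j : JetG R) : R := sum5 o fun i => o.mul (j.2.1 i) (j.2.1 i)

/-- Its derivative. -/
def dp0G (j h : JetG R) : R :=
  sum5 o fun i => o.mul (o.mul (o.cst 2) (j.2.1 i)) (h.2.1 i)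

/-- Hessian at the gradient. -/
def p1G (j : JetG R) : R :=
  sum5 o fun i => sum5 o fun k => o.mul (o.mul (j.2.1 i) (j.1 i k)) (j.2.1 k)

/-- Its derivative. -/
def dp1G (j h : JetG R) : R :=
  sum5 o fun i => sum5 o fun k =>
    o.add (o.add (o.mul (o.mul (h.2.1 i) (j.1 i k)) (j.2.1 k))
      (o.mul (o.mul (j.2.1 i) (h.1 i k)) (j.2.1 k)))
      (o.mul (o.mul (j.2.1 i) (j.1 i k)) (h.2.1 k))

/-- A term with integer coefficient. -/
structure ITerm where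
  /-- coefficient times 256 -/
  m : ℤ
  /-- one-form -/
  form : Form
  /-- exponent of the cubic trace -/
  e3 : ℕ
  /-- exponent of the squared gradient -/
  e0 : ℕ
  /-- exponent of the Hessian at the gradient -/
  e1 : ℕ
  /-- exponent of the value -/
  ew : ℕ

/-- The rational term. -/
def ITerm.term (t : ITerm) : Term := ⟨(t.m : ℚ) / 256, t.form, t.e3, t.e0, t.e1, t.ew⟩

/-- Weight. -/
def ITerm.wt (t : ITerm) : ℕ := t.form.wt + 3 * t.e3 + t.e1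

/-- Monomial. -/
def monG (t : ITerm) (j : JetG R) : R :=
  o.mul (o.mul (o.mul (pw o (t3G o j) t.e3) (pw o (p0G o j) t.e0)) (pw o (p1G o j) t.e1))
    (pw o j.2.2 t.ew)

/-- Derivative of the monomial. -/
def dmonG (t : ITerm) (j h : JetG R) : R :=
  o.add (o.mul (o.add (o.mul (o.add
    (o.mul (o.mul (o.mul (o.cst t.e3) (pw o (t3G o j) (t.e3 - 1))) (dt3G o j h))
      (pw o (p0G o j) t.e0))
    (o.mul (pw o (t3G o j) t.e3)
      (o.mul (o.mul (o.cst t.e0) (pw o (p0G o j) (t.e0 - 1))) (dp0G o j h))))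
    (pw o (p1G o j) t.e1))
    (o.mul (o.mul (pw o (t3G o j) t.e3) (pw o (p0G o j) t.e0))
      (o.mul (o.mul (o.cst t.e1) (pw o (p1G o j) (t.e1 - 1))) (dp1G o j h))))
    (pw o j.2.2 t.ew))
    (o.mul (o.mul (o.mul (pw o (t3G o j) t.e3) (pw o (p0G o j) t.e0)) (pw o (p1G o j) t.e1))
      (o.mul (o.mul (o.cst t.ew) (pw o j.2.2 (t.ew - 1))) h.2.2))

/-- Scaled derivative of one term, same direction twice. -/
def dtermG (t : ITerm) (j q : JetG R) : R :=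
  o.add
    (o.mul (o.add (o.mul (o.cst (t.m * 25 * (53 - 50 * t.wt))) (o.mul (dsG o j q) (monG o t j)))
      (o.mul (o.cst (t.m * 2500)) (dmonG o t j q))) (valG o t.form j q))
    (o.mul (o.mul (o.cst (t.m * 2500)) (monG o t j)) (dvalG o t.form j q q))

/-- Scaled value of one term. -/
def termG (t : ITerm) (j q : JetG R) : R :=
  o.mul (o.mul (o.cst (t.m * 2500)) (monG o t j)) (valG o t.form j q)

/-- The table of the certificate. -/
def itable : List ITerm := [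
  ⟨240, .a1, 0, 0, 0, 0⟩,
  ⟨87, .a1, 0, 0, 0, 1⟩,
  ⟨31, .a1, 0, 0, 1, 0⟩,
  ⟨-23, .a1, 0, 1, 0, 0⟩,
  ⟨-161, .a1, 1, 0, 0, 0⟩,
  ⟨137, .a1, 1, 1, 0, 0⟩,
  ⟨208, .a2, 0, 0, 0, 0⟩,
  ⟨-130, .a2, 0, 0, 0, 1⟩,
  ⟨41, .a2, 0, 0, 1, 0⟩,
  ⟨-108, .a2, 0, 1, 0, 0⟩,
  ⟨289, .s0, 0, 0, 0, 0⟩,
  ⟨-125, .s1, 0, 0, 0, 0⟩,
  ⟨-410, .s2, 0, 0, 0, 0⟩,
  ⟨154, .s2, 1, 0, 0, 0⟩,
  ⟨-94, .u0, 0, 0, 0, 0⟩,
  ⟨136, .u0, 0, 0, 0, 1⟩,
  ⟨278, .u0, 0, 0, 1, 0⟩,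
  ⟨567, .u0, 0, 1, 0, 0⟩,
  ⟨-350, .u0, 1, 0, 0, 0⟩,
  ⟨136, .u0, 1, 1, 0, 0⟩,
  ⟨200, .u1, 0, 0, 0, 0⟩,
  ⟨-27, .u1, 0, 0, 0, 1⟩,
  ⟨-135, .u1, 0, 0, 1, 0⟩,
  ⟨-467, .u1, 0, 1, 0, 0⟩,
  ⟨-270, .u1, 1, 0, 0, 0⟩,
  ⟨692, .u1, 1, 1, 0, 0⟩,
  ⟨426, .u2, 0, 0, 0, 0⟩,
  ⟨-291, .u2, 0, 0, 0, 1⟩,
  ⟨-77, .u2, 0, 0, 1, 0⟩,
  ⟨-1065, .u2, 0, 1, 0, 0⟩,
  ⟨256, .u2, 1, 0, 0, 0⟩,
  ⟨245, .u2, 1, 1, 0, 0⟩,
  ⟨177, .dw, 0, 0, 0, 0⟩,
  ⟨24, .dw, 0, 0, 0, 1⟩,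
  ⟨-175, .dw, 0, 1, 0, 0⟩,
  ⟨-151, .dw, 1, 0, 0, 0⟩,
  ⟨151, .dw, 1, 1, 0, 0⟩]

theorem itable_eq : itable.map ITerm.term = D5.table := by
  simp [itable, ITerm.term, D5.table]

/-- Sum of a list. -/
def sumL : List R → R
  | [] => o.cst 0
  | a :: l => o.add a (sumL l)

/-- Coordinates of a tangential harmonic cubic: sixteen sorted triples. -/
def tauIdx : ℕ → ℕ → ℕ → List (ℕ × ℤ)
  | 0, 0, 0 => [(0, 1)]
  | 0, 0, 1 => [(1, 1)]
  | 0, 0, 2 => [(2, 1)]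
  | 0, 0, 3 => [(3, 1)]
  | 0, 1, 1 => [(4, 1)]
  | 0, 1, 2 => [(5, 1)]
  | 0, 1, 3 => [(6, 1)]
  | 0, 2, 2 => [(7, 1)]
  | 0, 2, 3 => [(8, 1)]
  | 0, 3, 3 => [(0, -1), (4, -1), (7, -1)]
  | 1, 1, 1 => [(9, 1)]
  | 1, 1, 2 => [(10, 1)]
  | 1, 1, 3 => [(11, 1)]
  | 1, 2, 2 => [(12, 1)]
  | 1, 2, 3 => [(13, 1)]
  | 1, 3, 3 => [(1, -1), (9, -1), (12, -1)]
  | 2, 2, 2 => [(14, 1)]
  | 2, 2, 3 => [(15, 1)]
  | 2, 3, 3 => [(2, -1), (10, -1), (14, -1)]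
  | 3, 3, 3 => [(3, -1), (11, -1), (15, -1)]
  | _, _, _ => []

/-- Sorted arguments. -/
def tauSort (i k m : ℕ) : List (ℕ × ℤ) :=
  tauIdx (min i (min k m)) (max (min i k) (min (max i k) m)) (max i (max k m))

/-- The tangential tensor from the variables `x`. -/
def tauG (x : ℕ → R) (i k m : Fin 5) : R :=
  sumL o ((tauSort i k m).map fun p => o.mul (o.cst p.2) (x p.1))

/-- Eigenvalue variable. -/
def lG (x : ℕ → R) (i : Fin 5) : R := if i.1 = 4 then o.cst 0 else x (23 + i.1)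

/-- Gradient variable. -/
def vG (x : ℕ → R) (i : Fin 5) : R := x (18 + i.1)

/-- Base jet. -/
def jetG (x : ℕ → R) : JetG R :=
  (fun i m => if i = m then lG o x i else o.cst 0, fun i => vG x i, vG x 4)

/-- Border part. -/
def bordG (x : ℕ → R) (k i m : Fin 5) : R :=
  o.add (if i = 4 ∧ m = k then o.mul (o.cst (-1)) (lG o x k) else o.cst 0)
    (if m = 4 ∧ i = k then o.mul (o.cst (-1)) (lG o x k) else o.cst 0)

/-- Directions. -/
def qdirG (x : ℕ → R) (k : Fin 5) : JetG R :=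
  (fun i m => o.add (tauG o x k i m) (o.mul (x 17) (bordG o x k i m)),
    fun m => if k = m then o.mul (x 16) (lG o x k) else o.cst 0,
    if k = 4 then o.cst 0 else o.mul (x 17) (vG x k))

/-- Laplacian direction. -/
def ljetG (x : ℕ → R) : JetG R :=
  (fun i m => if i = m then o.mul (o.cst 2) (lG o x i) else o.cst 0, fun _ => o.cst 0,
    o.mul (o.cst (-4)) (vG x 4))

/-- `640000` times the interior form. -/
def QG (x : ℕ → R) : R :=
  o.add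
    (sum5 o fun k => o.add (sumL o (itable.map fun t => dtermG o t (jetG o x) (qdirG o x k)))
      (o.mul (o.cst (-44944)) (o.mul (dsG o (jetG o x) (qdirG o x k))
        (dsG o (jetG o x) (qdirG o x k)))))
    (o.mul (o.mul (x 17) (x 17))
      (o.add (sumL o (itable.map fun t => termG o t (jetG o x) (ljetG o x))) (o.cst (-1440000))))

/-- Real operations. -/
def realOps : Ops ℝ := ⟨fun z => z, (· + ·), (· * ·)⟩

end Vale.Agent.P098.Exact.Sos
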