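import Vale.Agent.P098.Exact.Sos.Gen

/-! Naturality of the generic interior form. -/

namespace Vale.Agent.P098.Exact.Sos

/-- A map of operations. -/
structure OpsHom {R S : Type} (o : Ops R) (p : Ops S) (f : R → S) : Prop where
  cst : ∀ z, f (o.cst z) = p.cst z
  add : ∀ a b, f (o.add a b) = p.add (f a) (f b)
  mul : ∀ a b, f (o.mul a b) = p.mul (f a) (f b)

variable {R S : Type} {o : Ops R} {p : Ops S} {f : R → S} (H : OpsHom o p f)

/-- Image of a jet. -/
def mapJ (f : R → S) (j : JetG R) : JetG S :=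
  (fun i k => f (j.1 i k), fun i => f (j.2.1 i), f j.2.2)

include H

theorem hom_sum5 (g : Fin 5 → R) : f (sum5 o g) = sum5 p fun i => f (g i) := by
  simp [sum5, H.add]

theorem hom_pw (x : R) : ∀ k, f (pw o x k) = pw p (f x) k
  | 0 => H.cst 1
  | k + 1 => by simp [pw, H.mul, hom_pw x k]

theorem hom_sumL : ∀ l : List R, f (sumL o l) = sumL p (l.map f)
  | [] => H.cst 0
  | a :: l => by simp [sumL, H.add, hom_sumL l]

theorem hom_valG (t : Form) (j q : JetG R) :
    f (valG o t j q) = valG p t (mapJ f j) (mapJ f q) := by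
  cases t <;> simp [valG, mapJ, hom_sum5 H, H.mul]

theorem hom_dvalG (t : Form) (j h q : JetG R) :
    f (dvalG o t j h q) = dvalG p t (mapJ f j) (mapJ f h) (mapJ f q) := by
  cases t <;> simp [dvalG, mapJ, hom_sum5 H, H.mul, H.add, H.cst]

theorem hom_dsG (j h : JetG R) : f (dsG o j h) = dsG p (mapJ f j) (mapJ f h) := by
  simp [dsG, mapJ, hom_sum5 H, H.mul, H.cst]

theorem hom_monG (t : ITerm) (j : JetG R) : f (monG o t j) = monG p t (mapJ f j) := by
  simp [monG, t3G, p0G, p1G, mapJ, hom_sum5 H, hom_pw H, H.mul]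

theorem hom_dmonG (t : ITerm) (j h : JetG R) :
    f (dmonG o t j h) = dmonG p t (mapJ f j) (mapJ f h) := by
  simp [dmonG, t3G, dt3G, p0G, dp0G, p1G, dp1G, mapJ, hom_sum5 H, hom_pw H, H.mul, H.add, H.cst]

theorem hom_tauG (x : ℕ → R) (i k m : Fin 5) :
    f (tauG o x i k m) = tauG p (fun n => f (x n)) i k m := by
  simp only [tauG, hom_sumL H, List.map_map]
  congr 1
  refine List.map_congr_left fun q _ => ?_
  simp [H.mul, H.cst]

theorem hom_lG (x : ℕ → R) (i : Fin 5) : f (lG o x i) = lG p (fun n => f (x n)) i := by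
  unfold lG
  split <;> simp [H.cst]

theorem hom_jetG (x : ℕ → R) : mapJ f (jetG o x) = jetG p (fun n => f (x n)) := by
  refine Prod.ext ?_ (Prod.ext rfl rfl)
  funext i m
  show f (if i = m then lG o x i else o.cst 0) = if i = m then lG p _ i else p.cst 0
  split <;> simp [hom_lG H, H.cst]

theorem hom_qdirG (x : ℕ → R) (k : Fin 5) :
    mapJ f (qdirG o x k) = qdirG p (fun n => f (x n)) k := by
  refine Prod.ext ?_ (Prod.ext ?_ ?_)
  · funext i m
    simp [mapJ, qdirG, bordG, H.add, H.mul, hom_tauG H, H.cst, apply_ite f, hom_lG H]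
  · funext m
    simp [mapJ, qdirG, apply_ite f, H.mul, hom_lG H, H.cst]
  · simp [mapJ, qdirG, vG, apply_ite f, H.mul, H.cst]

theorem hom_ljetG (x : ℕ → R) : mapJ f (ljetG o x) = ljetG p (fun n => f (x n)) := by
  refine Prod.ext ?_ (Prod.ext ?_ ?_)
  · funext i m
    simp [mapJ, ljetG, apply_ite f, H.mul, hom_lG H, H.cst]
  · funext i; exact H.cst 0
  · simp [mapJ, ljetG, vG, H.mul, H.cst]

theorem hom_QG (x : ℕ → R) : f (QG o x) = QG p (fun n => f (x n)) := by
  simp only [QG, H.add, H.mul, H.cst, hom_sum5 H, hom_sumL H, List.map_map, Function.comp_def,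
    dtermG, termG, hom_valG H, hom_dvalG H, hom_dsG H, hom_monG H, hom_dmonG H, hom_jetG H,
    hom_qdirG H, hom_ljetG H]

end Vale.Agent.P098.Exact.Sos
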