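import Mathlib

/-! Integer vectors packed into one integer, decoded with a bound. -/

namespace Vale.Agent.P098.Exact.Sos

/-- Slot base. -/
def base (w : ℕ) : ℕ := 2 ^ w

/-- Offset of a slot. -/
def half (w : ℕ) : ℕ := 2 ^ (w - 1)

/-- Signed digit of a packed natural number. -/
def dig (w N k : ℕ) : ℤ := ((N / base w ^ k % base w : ℕ) : ℤ) - half w

/-- The number with all digits one. -/
noncomputable def ones (w : ℕ) (n : ℕ) : ℕ :=
  Nat.rec (motive := fun _ => ℕ) 0 (fun _ ih => Nat.add 1 (Nat.mul (base w) ih)) n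

/-- Packed value of a vector. -/
def pk (w n : ℕ) (f : ℕ → ℤ) : ℤ := ∑ k ∈ Finset.range n, f k * (base w : ℤ) ^ k

/-- Signed value of a packed natural number. -/
noncomputable def sval (w n N : ℕ) : ℤ :=
  Int.sub (Int.ofNat N) (Int.ofNat (Nat.mul (half w) (ones w n)))

/-- Decoded digits. -/
noncomputable def unpk (w : ℕ) (n : ℕ) : ℕ → List ℤ :=
  Nat.rec (motive := fun _ => ℕ → List ℤ) (fun _ => [])
    (fun _ ih N => Int.subNatNat (Nat.mod N (base w)) (half w) :: ih (Nat.div N (base w))) n

theorem ones_succ (w n : ℕ) : ones w (n + 1) = 1 + base w * ones w n := rfl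

theorem unpk_succ (w n N : ℕ) :
    unpk w (n + 1) N = Int.subNatNat (N % base w) (half w) :: unpk w n (N / base w) := rfl

theorem ones_eq (w : ℕ) : ∀ n, (ones w n : ℤ) = ∑ k ∈ Finset.range n, (base w : ℤ) ^ k
  | 0 => rfl
  | n + 1 => by
    rw [ones_succ, Finset.sum_range_succ']
    push_cast
    rw [ones_eq w n, Finset.mul_sum]
    simp only [pow_succ, pow_zero]
    rw [add_comm]
    congr 1
    exact Finset.sum_congr rfl fun x _ => by ring

theorem unpk_length (w : ℕ) : ∀ n N, (unpk w n N).length = n
  | 0, N => rfl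
  | n + 1, N => by simp [unpk_succ, unpk_length w n]

theorem unpk_getD (w : ℕ) : ∀ n N k, k < n → (unpk w n N).getD k 0 = dig w N k
  | 0, N, k, h => by simp at h
  | n + 1, N, 0, _ => by simp [unpk_succ, dig, Int.subNatNat_eq_coe]
  | n + 1, N, k + 1, h => by
    rw [unpk_succ, List.getD_cons_succ, unpk_getD w n _ k (by omega), dig, dig,
      Nat.div_div_eq_div_mul, pow_succ']

theorem pk_succ (w n : ℕ) (f : ℕ → ℤ) :
    pk w (n + 1) f = f 0 + base w * pk w n fun k => f (k + 1) := by
  rw [pk, Finset.sum_range_succ', pk, Finset.mul_sum, add_comm]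
  simp only [pow_zero, mul_one]
  congr 1
  exact Finset.sum_congr rfl fun x _ => by rw [pow_succ]; ring

theorem sval_def (w n N : ℕ) : sval w n N = (N : ℤ) - ((half w * ones w n : ℕ) : ℤ) := rfl

/-- In range numbers are the packed value of their digits. -/
theorem sval_eq (w : ℕ) : ∀ n N, N < base w ^ n → sval w n N = pk w n (dig w N)
  | 0, N, h => by
    rw [pow_zero, Nat.lt_one_iff] at h
    subst h
    rfl
  | n + 1, N, h => by
    have hlt : N / base w < base w ^ n := Nat.div_lt_of_lt_mul (by rwa [← pow_succ'])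
    have ih := sval_eq w n _ hlt
    have hd : (fun k => dig w N (k + 1)) = dig w (N / base w) := by
      funext k
      simp [dig, pow_succ', Nat.div_div_eq_div_mul]
    rw [pk_succ, hd, ← ih]
    simp only [sval_def, ones_succ, dig, pow_zero, Nat.div_one]
    have e : ((N % base w : ℕ) : ℤ) + base w * ((N / base w : ℕ) : ℤ) = N := by
      exact_mod_cast Nat.mod_add_div N (base w)
    push_cast at *
    linear_combination -e

/-- A bounded vector is recovered from its packed value. -/
theorem dig_of_pk (w : ℕ) (hw : 0 < w) : ∀ (n N : ℕ) (f : ℕ → ℤ), (∀ k, k < n → |f k| < half w) →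
    (N : ℤ) = pk w n f + half w * ones w n → ∀ k, k < n → dig w N k = f k
  | 0, N, f, _, _, k, hk => by simp at hk
  | n + 1, N, f, hf, hN, k, hk => by
    have hb : (base w : ℤ) = 2 * half w := by
      obtain ⟨m, rfl⟩ : ∃ m, w = m + 1 := ⟨w - 1, by omega⟩
      simp [base, half, pow_succ]
      ring
    have h0 := abs_lt.1 (hf 0 (by omega))
    rw [pk_succ, ones_succ] at hN
    push_cast at hN
    set Q := pk w n (fun j => f (j + 1)) + half w * (ones w n : ℤ) with hQ
    have hN' : (N : ℤ) = (f 0 + half w) + base w * Q := by rw [hQ, hN]; ring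
    have hr : 0 ≤ f 0 + half w ∧ f 0 + half w < base w := by constructor <;> linarith
    have hmod : ((N % base w : ℕ) : ℤ) = f 0 + half w := by
      rw [Int.natCast_mod, hN', Int.add_mul_emod_self_left, Int.emod_eq_of_lt hr.1 hr.2]
    have hdiv : ((N / base w : ℕ) : ℤ) = Q := by
      rw [Int.natCast_div, hN', Int.add_mul_ediv_left _ _ (by linarith),
        Int.ediv_eq_zero_of_lt hr.1 hr.2, zero_add]
    cases k with
    | zero => simp [dig, hmod]
    | succ k =>
      have := dig_of_pk w hw n (N / base w) (fun j => f (j + 1)) (fun j hj => hf _ (by omega))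
        (by rw [hdiv, hQ]) k (by omega)
      rw [← this]
      simp [dig, pow_succ', Nat.div_div_eq_div_mul]

/-- A packed total is decoded from its offset. -/
noncomputable def decode (w n : ℕ) (Z : ℤ) : List ℤ :=
  unpk w n (Int.toNat (Int.add Z (Int.ofNat (Nat.mul (half w) (ones w n)))))

theorem decode_getD (w : ℕ) (hw : 0 < w) (n : ℕ) (f : ℕ → ℤ) (hf : ∀ k, k < n → |f k| < half w)
    (k : ℕ) (hk : k < n) : (decode w n (pk w n f)).getD k 0 = f k := by
  unfold decode
  rw [unpk_getD w n _ k hk]
  refine dig_of_pk w hw n _ f hf ?_ k hk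
  have h0 : 0 ≤ pk w n f + half w * (ones w n : ℤ) := by
    rw [ones_eq, pk, Finset.mul_sum, ← Finset.sum_add_distrib]
    refine Finset.sum_nonneg fun j hj => ?_
    rw [← add_mul]
    have := abs_lt.1 (hf j (Finset.mem_range.1 hj))
    exact mul_nonneg (by linarith) (pow_nonneg (Int.natCast_nonneg _) _)
  rw [Int.toNat_of_nonneg (by simpa [Int.ofNat_eq_natCast] using h0)]
  simp [Int.ofNat_eq_natCast]

theorem decode_length (w n : ℕ) (Z : ℤ) : (decode w n Z).length = n := unpk_length w n _

end Vale.Agent.P098.Exact.Sos
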